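import Vale.Agent.P092.H44.HMpJ
import Vale.Agent.P092.CL.TopO

/-!
P092, stage CL-O (helper387), rows NIS and PROX (helper44), part K: the fields `nis1`, `nis2`,
`prox1`, `prox2` of `CL.Geo` for the letters `CL.ltO` of the orthogonal groups.
-/

set_option linter.all false

open Matrix Set Filter Topology Module MeasureTheory

namespace Vale.Agent.P092.H44.HM

open Vale.Agent.P092.H303 (FormGroup Idx hyp)
open Vale.Agent.P092.H714.Cl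
open Vale.Agent.P092.H370.Po
open Vale.Agent.P092.H370.Fo (Fo Wf EU EU_le)
open Vale.Agent.P092.H514.NI (Covol)
open Vale.Agent.P092.CL (ltO OF EUF sc_EUF lc_EUF)

variable {k : Type} [NontriviallyNormedField k] [ProperSpace k] [MeasurableSpace k]
  {ι : Type} [Fintype ι] [DecidableEq ι] {J₀ : Matrix ι ι k}

/-- the Eichler elements are in the image -/
theorem eufO {n : Type} [Fintype n] [DecidableEq n] {J : Matrix n n k} {σ : k →+* k} {ε : k}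
    (g : FormGroup σ J) (hg : g.1 ∈ EU σ ε J) : ∃ s : EUF σ ε J, (EUF σ ε J).subtype s = g :=
  ⟨⟨g, hg⟩, rfl⟩

theorem nis1O (h : OF J₀) (s : ℕ)
    (Γ : Subgroup (EUF (RingHom.id k) 1 (hyp (s + 2) 1 J₀))) (hΓ : Covol Γ)
    (φ : C(SGr (RingHom.id k) (hyp (s + 2) 1 J₀) 1, ℂ) →ₗ[ℂ] ℂ)
    (h0 : ∀ f, 0 ≤ (φ (star f * f)).re) (h1 : φ 1 = 1)
    (hinv : ∀ γ ∈ Γ, ∀ f f' : C(SGr (RingHom.id k) (hyp (s + 2) 1 J₀) 1, ℂ),
      (∀ x, f' (γ • x) = f x) → φ f' = φ f) : False :=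
  haveI : Fact (Continuous (RingHom.id k)) := ⟨continuous_id⟩
  nis_geo (D := EUF (RingHom.id k) 1 (hyp (s + 2) 1 J₀)) (θ := (EUF _ _ _).subtype)
    (h.wf s).fo continuous_subtype_val (h.hasTor s) eufO le_rfl (fun _ _ => rfl) Γ hΓ φ h0 h1 hinv

theorem nis2O (h : OF J₀) (s : ℕ)
    (Γ : Subgroup (EUF (RingHom.id k) 1 (hyp (s + 2) 1 J₀))) (hΓ : Covol Γ)
    (φ : C(SGr (RingHom.id k) (hyp (s + 2) 1 J₀) (s + 2), ℂ) →ₗ[ℂ] ℂ)
    (h0 : ∀ f, 0 ≤ (φ (star f * f)).re) (h1 : φ 1 = 1)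
    (hinv : ∀ γ ∈ Γ, ∀ f f' : C(SGr (RingHom.id k) (hyp (s + 2) 1 J₀) (s + 2), ℂ),
      (∀ x, f' (γ • x) = f x) → φ f' = φ f) : False :=
  haveI : Fact (Continuous (RingHom.id k)) := ⟨continuous_id⟩
  nis_geo (D := EUF (RingHom.id k) 1 (hyp (s + 2) 1 J₀)) (θ := (EUF _ _ _).subtype)
    (h.wf s).fo continuous_subtype_val (h.hasTor s) eufO (by omega) (fun _ _ => rfl) Γ hΓ φ h0 h1
    hinv

theorem prox1O (h : OF J₀) (s : ℕ) {a : k} (ha : a ≠ 0) (μ₁ : Measure k)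
    (μ₂ : Measure (ι → k)) (Γ : Subgroup (EUF (RingHom.id k) 1 (hyp (s + 2) 1 J₀)))
    (hΓ : Covol Γ) (z : SGr (RingHom.id k) (hyp (s + 2) 1 J₀) 1)
    (K : Set (SGr (RingHom.id k) (hyp (s + 2) 1 J₀) 1)) (hK : IsCompact K)
    (hKo : ∀ y ∈ K, (ltO h s ha μ₁ μ₂).opp1 y z)
    (U : Set (SGr (RingHom.id k) (hyp (s + 2) 1 J₀) 1)) (hU : IsOpen U) (hUn : U.Nonempty) :
    ∃ γ ∈ Γ, ∀ y ∈ K, γ • y ∈ U :=
  haveI := sc_EUF h s
  haveI := lc_EUF h s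
  prox1_fo (D := EUF (RingHom.id k) 1 (hyp (s + 2) 1 J₀)) (θ := (EUF _ _ _).subtype)
    (fun _ _ => rfl) (h.wf s) (by omega) continuous_id continuous_subtype_val (h.hasTor s) eufO
    Γ hΓ z K hK hKo U hU hUn

theorem prox2O (h : OF J₀) (s : ℕ) {a : k} (ha : a ≠ 0) (μ₁ : Measure k)
    (μ₂ : Measure (ι → k)) (Γ : Subgroup (EUF (RingHom.id k) 1 (hyp (s + 2) 1 J₀)))
    (hΓ : Covol Γ) (z : SGr (RingHom.id k) (hyp (s + 2) 1 J₀) (s + 2))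
    (K : Set (SGr (RingHom.id k) (hyp (s + 2) 1 J₀) (s + 2))) (hK : IsCompact K)
    (hKo : ∀ y ∈ K, (ltO h s ha μ₁ μ₂).opp2 y z)
    (U : Set (SGr (RingHom.id k) (hyp (s + 2) 1 J₀) (s + 2))) (hU : IsOpen U)
    (hUn : U.Nonempty) : ∃ γ ∈ Γ, ∀ y ∈ K, γ • y ∈ U :=
  haveI := sc_EUF h s
  haveI := lc_EUF h s
  prox2_fo (D := EUF (RingHom.id k) 1 (hyp (s + 2) 1 J₀)) (θ := (EUF _ _ _).subtype)
    (fun _ _ => rfl) (h.wf s) continuous_id continuous_subtype_val (h.hasTor s) eufO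
    Γ hΓ z K hK hKo U hU hUn

end Vale.Agent.P092.H44.HM
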