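import Vale.Agent.P092.H44.Nrm
import Vale.Agent.P092.H820.Pn

/-!
P092, TEAM N, block [N-K2], file Sec, part 2 (helper44).
A Borel section of homogeneous coordinates on the projective space over a local field, with
values in the normalised vectors.
-/

namespace Vale.Agent.P092.H44

open Vale.Agent.P092.H589.K2 Vale.Agent.P092.H820 Projectivization Topology
open scoped LinearAlgebra.Projectivization

section

variable {k : Type*} [Field k] [TopologicalSpace k] [IsTopologicalRing k] [ContinuousInv₀ k]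
  [T1Space k] {ι : Type*}

/-- the points with nonzero `i`-th coordinate -/
def chU (i : ι) : Set (ℙ k (ι → k)) := {x | x.rep i ≠ 0}

/-- the point normalised by its `i`-th coordinate -/
noncomputable def chF (i : ι) (x : ℙ k (ι → k)) : ι → k := (x.rep i)⁻¹ • x.rep

omit [TopologicalSpace k] [IsTopologicalRing k] [ContinuousInv₀ k] [T1Space k] in
lemma rep_pj (v : {v : ι → k // v ≠ 0}) :
    ∃ c : k, c ≠ 0 ∧ (Projectivization.mk' k v).rep = c • v.1 := by
  obtain ⟨c, hc⟩ := Projectivization.exists_smul_eq_mk_rep k v.1 v.2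
  refine ⟨c, c.ne_zero, ?_⟩
  rw [Projectivization.mk'_eq_mk, ← hc]
  rfl

omit [IsTopologicalRing k] [ContinuousInv₀ k] [T1Space k] in
lemma chU_pj (i : ι) (v : {v : ι → k // v ≠ 0}) : pj k ι v ∈ chU i ↔ v.1 i ≠ 0 := by
  obtain ⟨c, hc, he⟩ := rep_pj v
  show (Projectivization.mk' k v).rep i ≠ 0 ↔ _
  rw [he, Pi.smul_apply, smul_eq_mul]
  constructor
  · intro h h0
    exact h (by rw [h0, mul_zero])
  · intro h
    exact mul_ne_zero hc h

omit [IsTopologicalRing k] [ContinuousInv₀ k] [T1Space k] in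
lemma chF_pj (i : ι) (v : {v : ι → k // v ≠ 0}) : chF i (pj k ι v) = (v.1 i)⁻¹ • v.1 := by
  obtain ⟨c, hc, he⟩ := rep_pj v
  show ((Projectivization.mk' k v).rep i)⁻¹ • (Projectivization.mk' k v).rep = _
  rw [he, Pi.smul_apply, smul_eq_mul, smul_smul, mul_inv, mul_assoc, mul_comm, mul_assoc,
    mul_inv_cancel₀ hc, mul_one]

lemma chU_open (i : ι) : IsOpen (chU (k := k) i) := by
  rw [← (pj_oq (k := k) (ι := ι)).isQuotientMap.isOpen_preimage]
  have e : pj k ι ⁻¹' (chU i) = {v | v.1 i ≠ 0} := by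
    ext v
    exact chU_pj i v
  rw [e]
  exact isOpen_compl_singleton.preimage ((continuous_apply i).comp continuous_subtype_val)

lemma chF_cont (i : ι) : ContinuousOn (chF (k := k) i) (chU i) := by
  intro x hx
  obtain ⟨v, rfl⟩ := pj_surj x
  have hv : v.1 i ≠ 0 := (chU_pj i v).1 hx
  have h1 : ContinuousAt (fun w : {v : ι → k // v ≠ 0} => (w.1 i)⁻¹ • w.1) v := by
    have h2 : ContinuousAt (fun w : {v : ι → k // v ≠ 0} => w.1 i) v :=
      ((continuous_apply i).comp continuous_subtype_val).continuousAt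
    exact (h2.inv₀ hv).smul continuous_subtype_val.continuousAt
  have h3 : ContinuousAt (chF (k := k) i ∘ pj k ι) v := by
    have e : chF (k := k) i ∘ pj k ι = fun w : {v : ι → k // v ≠ 0} => (w.1 i)⁻¹ • w.1 :=
      funext fun w => chF_pj i w
    rw [e]
    exact h1
  refine ContinuousAt.continuousWithinAt ?_
  rw [ContinuousAt, ← (pj_oq (k := k) (ι := ι)).map_nhds_eq v]
  exact h3

end

/-- A Borel section of homogeneous coordinates, with normalised values. -/
theorem exists_sec (𝕜 : Type) [NontriviallyNormedField 𝕜] [ProperSpace 𝕜] [MeasurableSpace 𝕜]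
    [BorelSpace 𝕜] (β : Type) [Fintype β] [MeasurableSpace (ℙ 𝕜 (β → 𝕜))]
    [BorelSpace (ℙ 𝕜 (β → 𝕜))] :
    ∃ s : ℙ 𝕜 (β → 𝕜) → β → 𝕜, Measurable s ∧ (∀ x, Nrm (s x)) ∧
      ∀ x, ∃ h, Projectivization.mk 𝕜 (s x) h = x := by
  classical
  have hF : ∀ i : β, Measurable ((chU i).piecewise (chF (k := 𝕜) i) fun _ => 0) := fun i =>
    (chF_cont i).measurable_piecewise continuousOn_const (chU_open i).measurableSet
  obtain ⟨v, hv, hv'⟩ := exists_sel (Y := ℙ 𝕜 (β → 𝕜))
    (fun i : β => (chU i).piecewise (chF (k := 𝕜) i) fun _ => 0) hF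
    (fun i x => x ∈ chU i) (fun i => (chU_open i).measurableSet)
    (fun x => Function.ne_iff.1 x.rep_nonzero)
  have hvx : ∀ x, ∃ c : 𝕜, c ≠ 0 ∧ v x = c • x.rep := fun x => by
    obtain ⟨i, hi, he⟩ := hv' x
    refine ⟨(x.rep i)⁻¹, inv_ne_zero hi, ?_⟩
    rw [he, Set.piecewise_eq_of_mem _ _ _ hi]
    rfl
  obtain ⟨s, hs, hs'⟩ := exists_nrm v hv fun x => by
    obtain ⟨c, hc, he⟩ := hvx x
    rw [he]
    exact smul_ne_zero hc x.rep_nonzero
  refine ⟨s, hs, fun x => (hs' x).1, fun x => ?_⟩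
  obtain ⟨c, hc, he⟩ := hvx x
  obtain ⟨-, d, hd, he2⟩ := hs' x
  have h0 : s x ≠ 0 := by
    rw [he2, he]
    exact smul_ne_zero hd (smul_ne_zero hc x.rep_nonzero)
  refine ⟨h0, ?_⟩
  conv_rhs => rw [← x.mk_rep]
  rw [Projectivization.mk_eq_mk_iff']
  exact ⟨d * c, by rw [he2, he, smul_smul]⟩

end Vale.Agent.P092.H44
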