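import Vale.Agent.P092.H370.Po3
import Vale.Agent.P092.H714.Cl3

/-!
P092, TEAM P, stage 2, row [P2-HM] (helper44), part C: dual systems of a singular space and the
product of the hyperbolic elements.
-/

set_option linter.all false

open Matrix Set

namespace Vale.Agent.P092.H44.HM

open Vale.Agent.P092.H303 (FormGroup)
open Vale.Agent.P092.H714.Cl
open Vale.Agent.P092.H370.Po

variable {n : Type} [Fintype n] [DecidableEq n] {k : Type} [Field k]
  {σ : k →+* k} {ε : k} {J : Matrix n n k} {j : ℕ}

/-- a hyperbolic system -/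
structure Hyp (σ : k →+* k) (J : Matrix n n k) {j : ℕ} (u w : Fin j → n → k) : Prop where
  uu : ∀ i l, hf σ J (u i) (u l) = 0
  ww : ∀ i l, hf σ J (w i) (w l) = 0
  uw : ∀ i l, hf σ J (u i) (w l) = if i = l then 1 else 0

theorem hf_sum_left {ι : Type*} (s : Finset ι) (c : ι → k) (v : ι → n → k) (y : n → k) :
    hf σ J (∑ i ∈ s, c i • v i) y = ∑ i ∈ s, c i * hf σ J (v i) y := by
  classical
  induction s using Finset.induction_on with
  | empty => simp [hf_zero_left]
  | insert a s ha ih => rw [Finset.sum_insert ha, Finset.sum_insert ha, hf_add_left, hf_smul_left,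
      ih]

theorem hf_sum_right {ι : Type*} (s : Finset ι) (c : ι → k) (v : ι → n → k) (y : n → k) :
    hf σ J y (∑ i ∈ s, c i • v i) = ∑ i ∈ s, σ (c i) * hf σ J y (v i) := by
  classical
  induction s using Finset.induction_on with
  | empty => simp [hf_zero_right]
  | insert a s ha ih => rw [Finset.sum_insert ha, Finset.sum_insert ha, hf_add_right,
      hf_smul_right, ih]

theorem hf_neg_right (x y : n → k) : hf σ J x (-y) = -hf σ J x y := by
  have h := hf_smul_right σ J (-1) x y
  rw [neg_one_smul, map_neg, map_one, neg_one_mul] at h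
  exact h

theorem hf_neg_left (x y : n → k) : hf σ J (-x) y = -hf σ J x y := by
  have h := hf_smul_left σ J (-1) x y
  rw [neg_one_smul, neg_one_mul] at h
  exact h

theorem hf_sub_left (x x' y : n → k) : hf σ J (x - x') y = hf σ J x y - hf σ J x' y := by
  rw [sub_eq_add_neg, hf_add_left, hf_neg_left, sub_eq_add_neg]

theorem hf_sub_right (x y y' : n → k) : hf σ J x (y - y') = hf σ J x y - hf σ J x y' := by
  rw [sub_eq_add_neg, hf_add_right, hf_neg_right, sub_eq_add_neg]

/-- **dual systems exist** -/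
theorem exists_dual (hF : Frm σ ε J) {u : Fin j → n → k} (hu : LinearIndependent k u)
    (hS : Sing σ J (Submodule.span k (range u))) : ∃ w, Hyp σ J u w := by
  classical
  have hmem : ∀ i, u i ∈ Submodule.span k (range u) := fun i => Submodule.subset_span ⟨i, rfl⟩
  have huu : ∀ i l, hf σ J (u i) (u l) = 0 := fun i l => hS _ (hmem i) _ (hmem l)
  -- isotropic vectors with the right products
  have h1 : ∀ l, ∃ y, hf σ J y y = 0 ∧ ∀ i, hf σ J (u i) y = if i = l then 1 else 0 := by
    intro l
    let B := Module.Basis.span hu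
    have hB : ∀ i, (B i).1 = u i := fun i =>
      congrArg Subtype.val (Module.Basis.span_apply hu i)
    have hφ : B.coord l ≠ 0 := by
      intro h0
      have h2 : B.coord l (B l) = 0 := by rw [h0]; rfl
      rw [Module.Basis.coord_apply, Module.Basis.repr_self, Finsupp.single_eq_same] at h2
      exact one_ne_zero h2
    obtain ⟨z, hz, hzx⟩ := exists_iso_prod hF hS (B.coord l) hφ
    refine ⟨z, hz, fun i => ?_⟩
    have h2 := hzx (B i)
    rw [hB i, Module.Basis.coord_apply, Module.Basis.repr_self, Finsupp.single_apply] at h2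
    exact h2
  choose y hy hyu using h1
  let c : Fin j → Fin j → k := fun l m => if l < m then -hf σ J (y l) (y m) else 0
  have hyu' : ∀ l i, hf σ J (y l) (u i) = if i = l then ε else 0 := by
    intro l i
    rw [hF.herm, hyu]
    split_ifs
    · rw [map_one, mul_one]
    · rw [map_zero, mul_zero]
  refine ⟨fun l => y l + ∑ m, c l m • u m, huu, fun l m => ?_, fun i l => ?_⟩
  · rw [hf_add_left, hf_add_right, hf_add_right, hf_sum_left, hf_sum_right]
    have e1 : ∑ p, σ (c m p) * hf σ J (y l) (u p) = σ (c m l) * ε := by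
      simp only [hyu', mul_ite, mul_zero]
      rw [Finset.sum_ite_eq' Finset.univ l, if_pos (Finset.mem_univ _)]
    have e2 : ∑ p, c l p * hf σ J (u p) (y m) = c l m := by
      simp only [hyu, mul_ite, mul_zero, mul_one]
      rw [Finset.sum_ite_eq' Finset.univ m, if_pos (Finset.mem_univ _)]
    have e3 : hf σ J (∑ p, c l p • u p) (∑ p, c m p • u p) = 0 := by
      rw [hf_sum_left]
      refine Finset.sum_eq_zero fun p _ => ?_
      rw [hf_sum_right]
      rw [Finset.sum_eq_zero fun q _ => by rw [huu, mul_zero], mul_zero]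
    rw [e1, e2, e3, add_zero]
    rcases lt_trichotomy l m with h | h | h
    · have c1 : c l m = -hf σ J (y l) (y m) := if_pos h
      have c2 : c m l = 0 := if_neg h.asymm
      rw [c1, c2, map_zero, zero_mul, add_zero, add_neg_cancel]
    · subst h
      have c1 : c l l = 0 := if_neg (lt_irrefl _)
      rw [c1, map_zero, zero_mul, hy, add_zero, add_zero]
    · have c1 : c l m = 0 := if_neg h.asymm
      have c2 : c m l = -hf σ J (y m) (y l) := if_pos h
      rw [c1, c2, add_zero, hF.herm (y m) (y l), map_neg]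
      ring
  · rw [hf_add_right, hyu, hf_sum_right, Finset.sum_eq_zero fun q _ => by rw [huu, mul_zero],
      add_zero]

theorem Hyp.wu (hF : Frm σ ε J) {u w : Fin j → n → k} (h : Hyp σ J u w) (i l : Fin j) :
    hf σ J (w i) (u l) = if i = l then ε else 0 := by
  rw [hF.herm, h.uw]
  by_cases hil : i = l
  · rw [if_pos hil, if_pos hil.symm, map_one, mul_one]
  · rw [if_neg hil, if_neg (Ne.symm hil), map_zero, mul_zero]

/-- the product of hyperbolic elements -/
noncomputable def bt (σ : k →+* k) (ε : k) (J : Matrix n n k) {ι : Type*} (u w : ι → n → k)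
    (s r : k) (L : List ι) : SpecialLinearGroup n k :=
  (L.map fun i => dv σ ε J (u i) (w i) s r).prod

theorem bt_cons {ι : Type*} (u w : ι → n → k) (s r : k) (i : ι) (L : List ι) :
    bt σ ε J u w s r (i :: L) = dv σ ε J (u i) (w i) s r * bt σ ε J u w s r L := by
  unfold bt
  rw [List.map_cons, List.prod_cons]

theorem bt_fix {u w : Fin j → n → k} (h : Hyp σ J u w) {s r : k} (L : List (Fin j)) {y : n → k}
    (hy : ∀ i ∈ L, hf σ J y (u i) = 0 ∧ hf σ J y (w i) = 0) :
    y ᵥ* (bt σ ε J u w s r L).1 = y := by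
  induction L with
  | nil => exact vecMul_one' y
  | cons i L ih =>
    have h1 := hy i List.mem_cons_self
    rw [bt_cons, vecMul_mul', y_dv (h.uu i i) (h.ww i i) h1.1 h1.2]
    exact ih fun l hl => hy l (List.mem_cons_of_mem _ hl)

section

variable (hF : Frm σ ε J) {u w : Fin j → n → k} (h : Hyp σ J u w) {s r : k} (hs0 : s ≠ 0)
  (hr0 : r ≠ 0)

include hF h hs0 hr0

theorem bt_u (L : List (Fin j)) (hL : L.Nodup) {i : Fin j} (hi : i ∈ L) :
    u i ᵥ* (bt σ ε J u w s r L).1 = r⁻¹ • u i := by
  induction L with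
  | nil => exact absurd hi List.not_mem_nil
  | cons l L ih =>
    rw [List.nodup_cons] at hL
    rw [bt_cons, vecMul_mul']
    rcases List.mem_cons.1 hi with rfl | hi'
    · have h1 : hf σ J (u i) (w i) = 1 := by rw [h.uw, if_pos rfl]
      rw [u_dv hF (h.uu i i) (h.ww i i) h1 hs0 hr0, smul_vecMul, bt_fix h L fun m hm => ?_]
      refine ⟨h.uu i m, ?_⟩
      rw [h.uw, if_neg]
      rintro rfl
      exact hL.1 hm
    · have hil : i ≠ l := by
        rintro rfl
        exact hL.1 hi'
      rw [y_dv (h.uu l l) (h.ww l l) (h.uu i l) (by rw [h.uw, if_neg hil])]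
      exact ih hL.2 hi'

theorem bt_w (L : List (Fin j)) (hL : L.Nodup) {i : Fin j} (hi : i ∈ L) :
    w i ᵥ* (bt σ ε J u w s r L).1 = r • w i := by
  induction L with
  | nil => exact absurd hi List.not_mem_nil
  | cons l L ih =>
    rw [List.nodup_cons] at hL
    rw [bt_cons, vecMul_mul']
    rcases List.mem_cons.1 hi with rfl | hi'
    · have h1 : hf σ J (u i) (w i) = 1 := by rw [h.uw, if_pos rfl]
      rw [w_dv hF (h.uu i i) (h.ww i i) h1 hs0 hr0, smul_vecMul, bt_fix h L fun m hm => ?_]
      refine ⟨?_, h.ww i m⟩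
      rw [h.wu hF, if_neg]
      rintro rfl
      exact hL.1 hm
    · have hil : i ≠ l := by
        rintro rfl
        exact hL.1 hi'
      rw [y_dv (h.uu l l) (h.ww l l) (by rw [h.wu hF, if_neg hil]) (h.ww i l)]
      exact ih hL.2 hi'

/-- the action on the orthogonal space of the `w` -/
theorem bt_y (L : List (Fin j)) (hL : L.Nodup) (hall : ∀ i, i ∈ L) {y : n → k}
    (hy : ∀ i, hf σ J y (w i) = 0) :
    y ᵥ* (bt σ ε J u w s r L).1 = y + ∑ l, ((r - 1) * (ε * hf σ J y (u l))) • w l := by
  classical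
  set z : n → k := ∑ l, (ε * hf σ J y (u l)) • w l with hz
  have h1 : ∀ m, hf σ J (y - z) (u m) = 0 := by
    intro m
    have e : ∑ i, ε * hf σ J y (u i) * hf σ J (w i) (u m) = ε * hf σ J y (u m) * ε := by
      simp only [h.wu hF, mul_ite, mul_zero]
      rw [Finset.sum_ite_eq' Finset.univ m, if_pos (Finset.mem_univ _)]
    rw [hf_sub_left, hz, hf_sum_left, e]
    linear_combination -(hf σ J y (u m)) * hF.eps
  have h2 : ∀ m, hf σ J (y - z) (w m) = 0 := by
    intro m
    rw [hf_sub_left, hy, hz, hf_sum_left, Finset.sum_eq_zero fun i _ => by rw [h.ww, mul_zero],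
      sub_zero]
  have h3 : (y - z) ᵥ* (bt σ ε J u w s r L).1 = y - z := bt_fix h L fun m _ => ⟨h1 m, h2 m⟩
  have h4 : z ᵥ* (bt σ ε J u w s r L).1 = r • z := by
    rw [hz]
    have e1 : (∑ l, (ε * hf σ J y (u l)) • w l) ᵥ* (bt σ ε J u w s r L).1 =
        ∑ l, (ε * hf σ J y (u l)) • (w l ᵥ* (bt σ ε J u w s r L).1) := by
      rw [Matrix.sum_vecMul]
      exact Finset.sum_congr rfl fun l _ => smul_vecMul _ _ _
    rw [e1, Finset.smul_sum]
    refine Finset.sum_congr rfl fun l _ => ?_
    rw [bt_w hF h hs0 hr0 L hL (hall l), smul_comm]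
  have h5 : y ᵥ* (bt σ ε J u w s r L).1 = (y - z) + r • z := by
    conv_lhs => rw [← sub_add_cancel y z]
    rw [add_vecMul, h3, h4]
  rw [h5]
  have e2 : ∑ l, ((r - 1) * (ε * hf σ J y (u l))) • w l = (r - 1) • z := by
    rw [hz, Finset.smul_sum]
    exact Finset.sum_congr rfl fun l _ => (smul_smul _ _ _).symm
  rw [e2]
  module

end

/-- the product is in `GT` -/
theorem bt_mem (hF : Frm σ ε J) {u w : Fin j → n → k} (h : Hyp σ J u w) {s r : k} (hs0 : s ≠ 0)
    (hs : s + ε * σ s = 0) (hr0 : r ≠ 0) (hr : σ r = r) (L : List (Fin j)) :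
    bt σ ε J u w s r L ∈ GT σ ε J := by
  induction L with
  | nil => exact one_mem _
  | cons i L ih =>
    rw [bt_cons]
    exact mul_mem (dv_mem hF (h.uu i i) (h.ww i i) hs0 hs hr0 hr) ih

end Vale.Agent.P092.H44.HM
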