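import Vale.Agent.P092.H44.HMpB
import Vale.Agent.P092.H44.HMpC
import Vale.Agent.P092.H370.Po4
import Vale.Agent.P092.H68.Span

/-!
P092, TEAM P, stage 2, row [P2-HM] (helper44), part D: no invariant state on the singular
Grassmannians `SGr σ J j`, `j ≥ 1`, under the lattices of every group between `GT σ ε J` and
`FormGroup σ J`, over every local field.
-/

set_option linter.all false

open Matrix Set Filter Topology

namespace Vale.Agent.P092.H44.HM

open Vale.Agent.P092.H303 (FormGroup)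
open Vale.Agent.P092.H714.Cl
open Vale.Agent.P092.H370.Po
open Vale.Agent.P092.H100.Gr (Gr Fr sp sp_surj sp_cont sp_open fr_val_cont cb cb_span cb_cb cb_one)
open Vale.Agent.P092.H68.Gras (spT spT_val spT_cont isOpen_li)
open Vale.Agent.P092.H514.NI (Covol)
open Vale.Agent.P092.H76.Pur (NIS)

variable {n : Type} [Fintype n] [DecidableEq n] {k : Type} [NontriviallyNormedField k]
  {σ : k →+* k} {ε : k} {J : Matrix n n k} {j : ℕ}

/-- the matrix of the products with `w` -/
def pm (σ : k →+* k) (J : Matrix n n k) (w v : Fin j → n → k) : Matrix (Fin j) (Fin j) k :=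
  Matrix.of fun i l => hf σ J (v i) (w l)

theorem pm_cont (hσ : Continuous σ) (w : Fin j → n → k) : Continuous fun v => pm σ J w v := by
  refine continuous_matrix fun i l => ?_
  have h1 : Continuous fun v : Fin j → n → k => (v i, w l) :=
    (continuous_apply i).prodMk continuous_const
  exact (continuous_hf hσ).comp h1

theorem pm_cb (w : Fin j → n → k) (A : Matrix (Fin j) (Fin j) k) (v : Fin j → n → k) :
    pm σ J w (cb A v) = A * pm σ J w v := by
  ext i l
  change hf σ J (∑ c, A i c • v c) (w l) = _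
  rw [hf_sum_left, Matrix.mul_apply]
  rfl

/-- the chart set around the span of `u` -/
def UU (σ : k →+* k) (J : Matrix n n k) (u w : Fin j → n → k) : Set (SGr σ J j) :=
  {X | ∃ ρ : Fin j → n → k, (∀ i l, hf σ J (ρ i) (w l) = 0) ∧ ‖ρ‖ ≤ 1 ∧
    X.S = Submodule.span k (range (u + ρ))}

section chart

variable {u w : Fin j → n → k} (h : Hyp σ J u w)

include h

theorem pm_u : pm σ J w u = 1 := by
  ext i l
  change hf σ J (u i) (w l) = _
  rw [h.uw, Matrix.one_apply]

/-- the chart set is a neighbourhood -/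
theorem UU_mem (hσ : Continuous σ) (X₀ : SGr σ J j) (hu : LinearIndependent k u)
    (hX : X₀.S = Submodule.span k (range u)) : UU σ J u w ∈ 𝓝 X₀ := by
  -- normalisation
  let N : (Fin j → n → k) → (Fin j → n → k) := fun v => cb (pm σ J w v)⁻¹ v
  have hN : ContinuousAt N u := by
    have h1 : ContinuousAt (fun v : Fin j → n → k => (pm σ J w v)⁻¹) u := by
      have e : (fun v : Fin j → n → k => (pm σ J w v)⁻¹) =
          fun v => (pm σ J w v).det⁻¹ • (pm σ J w v).adjugate := by
        funext v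
        rw [Matrix.inv_def, Ring.inverse_eq_inv']
      rw [e]
      have h2 : ContinuousAt (fun v : Fin j → n → k => (pm σ J w v).det⁻¹) u := by
        refine ContinuousAt.inv₀ (pm_cont hσ w).matrix_det.continuousAt ?_
        rw [pm_u h, Matrix.det_one]
        exact one_ne_zero
      have h3 : ContinuousAt (fun v : Fin j → n → k => (pm σ J w v).adjugate) u :=
        (pm_cont hσ w).matrix_adjugate.continuousAt
      exact h2.smul h3
    refine continuousAt_pi.2 fun b => ?_
    change ContinuousAt (fun v : Fin j → n → k => ∑ c, (pm σ J w v)⁻¹ b c • v c) u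
    refine tendsto_finset_sum _ fun c _ => ?_
    have h4 : ContinuousAt (fun v : Fin j → n → k => (pm σ J w v)⁻¹ b c) u :=
      (continuous_apply_apply b c).continuousAt.comp (f := fun v => (pm σ J w v)⁻¹) h1
    have h5 : ContinuousAt (fun v : Fin j → n → k => v c) u := (continuous_apply c).continuousAt
    exact h4.smul h5
  have hNu : N u = u := by
    change cb (pm σ J w u)⁻¹ u = u
    rw [pm_u h, inv_one, cb_one]
  -- the neighbourhood of the frame
  have hO : {v : Fr k n j | (pm σ J w v.1).det ≠ 0 ∧ ‖N v.1 - u‖ ≤ 1} ∈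
      𝓝 (⟨u, hu⟩ : Fr k n j) := by
    have h1 : {v : Fin j → n → k | (pm σ J w v).det ≠ 0 ∧ ‖N v - u‖ ≤ 1} ∈ 𝓝 u := by
      have h2 : ∀ᶠ v in 𝓝 u, (pm σ J w v).det ≠ 0 := by
        refine (pm_cont hσ w).matrix_det.continuousAt.eventually_ne ?_
        rw [pm_u h, Matrix.det_one]
        exact one_ne_zero
      have h3 : ∀ᶠ v in 𝓝 u, ‖N v - u‖ ≤ 1 := by
        have h4 : Tendsto (fun v => ‖N v - u‖) (𝓝 u) (𝓝 0) := by
          have h5 : Tendsto (fun v => ‖N v - u‖) (𝓝 u) (𝓝 ‖N u - u‖) :=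
            (hN.sub continuousAt_const).norm
          rwa [hNu, sub_self, norm_zero] at h5
        exact (h4.eventually (gt_mem_nhds one_pos)).mono fun v hv => hv.le
      exact h2.and h3
    exact (fr_val_cont.continuousAt (x := (⟨u, hu⟩ : Fr k n j))).preimage_mem_nhds h1
  have hO2 := sp_open.image_mem_nhds hO
  have hX₀ : (sp ⟨u, hu⟩ : Gr k n j) = X₀.1 := Subtype.ext hX.symm
  rw [hX₀] at hO2
  refine mem_of_superset (SGr.val_cont.continuousAt.preimage_mem_nhds hO2) ?_
  rintro X ⟨v, ⟨hv1, hv2⟩, hv3⟩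
  have hdet : IsUnit (pm σ J w v.1).det := isUnit_iff_ne_zero.2 hv1
  refine ⟨N v.1 - u, fun i l => ?_, hv2, ?_⟩
  · have h1 : pm σ J w (N v.1) = 1 := by
      change pm σ J w (cb (pm σ J w v.1)⁻¹ v.1) = 1
      rw [pm_cb, Matrix.nonsing_inv_mul _ hdet]
    have h2 : hf σ J (N v.1 i) (w l) = (1 : Matrix (Fin j) (Fin j) k) i l := congrFun
      (congrFun h1 i) l
    change hf σ J (N v.1 i - u i) (w l) = 0
    rw [hf_sub_left, h2, h.uw, Matrix.one_apply, sub_self]
  · rw [add_sub_cancel]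
    change X.1.1 = Submodule.span k (range (cb (pm σ J w v.1)⁻¹ v.1))
    rw [cb_span]
    · exact congrArg Subtype.val hv3.symm
    · rw [Matrix.det_nonsing_inv, Ring.inverse_eq_inv']
      exact isUnit_iff_ne_zero.2 (inv_ne_zero hv1)

/-- spans of frames near `u` -/
theorem near_u (X₀ : SGr σ J j) (hu : LinearIndependent k u)
    (hX : X₀.S = Submodule.span k (range u)) {W : Set (SGr σ J j)} (hW : W ∈ 𝓝 X₀) :
    ∃ δ : ℝ, 0 < δ ∧ ∀ (ρ : Fin j → n → k) (X : SGr σ J j), ‖ρ‖ < δ →
      X.S = Submodule.span k (range (u + ρ)) → X ∈ W := by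
  obtain ⟨V, hV, hVW⟩ : ∃ V ∈ 𝓝 X₀.1, (fun X : SGr σ J j => X.1) ⁻¹' V ⊆ W := by
    have h1 : 𝓝 X₀ = comap (fun X : SGr σ J j => X.1) (𝓝 X₀.1) := nhds_induced _ _
    rw [h1] at hW
    exact Filter.mem_comap.1 hW
  have h2 : ContinuousAt (fun ρ : Fin j → n → k => spT X₀.1 (u + ρ)) 0 := by
    have h3 : ContinuousAt (spT X₀.1) (u + 0) := by
      rw [add_zero]
      exact spT_cont X₀.1 hu
    exact h3.comp (f := fun ρ : Fin j → n → k => u + ρ) (by fun_prop)
  have h4 : spT X₀.1 (u + 0) = X₀.1 := by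
    refine Subtype.ext ?_
    rw [spT_val X₀.1 (by rwa [add_zero]), add_zero]
    exact hX.symm
  have h5 : ∀ᶠ ρ in 𝓝 (0 : Fin j → n → k), spT X₀.1 (u + ρ) ∈ V := by
    have : V ∈ 𝓝 (spT X₀.1 (u + 0)) := by rwa [h4]
    exact h2.eventually this
  have h6 : ∀ᶠ ρ in 𝓝 (0 : Fin j → n → k), LinearIndependent k (u + ρ) := by
    have h7 : Tendsto (fun ρ : Fin j → n → k => u + ρ) (𝓝 0) (𝓝 (u + 0)) :=
      (continuous_const.add continuous_id).continuousAt
    rw [add_zero] at h7
    exact h7.eventually (isOpen_li.mem_nhds hu)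
  obtain ⟨δ, hδ, h8⟩ := Metric.eventually_nhds_iff.1 (h5.and h6)
  refine ⟨δ, hδ, fun ρ X hρ hXρ => ?_⟩
  have h9 := h8 (y := ρ) (by rwa [dist_zero_right])
  apply hVW
  change X.1 ∈ V
  have e : X.1 = spT X₀.1 (u + ρ) := by
    refine Subtype.ext ?_
    rw [spT_val X₀.1 h9.2]
    exact hXρ
  rw [e]
  exact h9.1

end chart

end Vale.Agent.P092.H44.HM
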