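import Vale.Agent.P092.H44.HMpA
import Vale.Agent.P092.H44.HMpD
import Vale.Agent.P092.H411.NRk

/-!
P092, TEAM P, stage 2, row [P2-HM] (helper44), part E: no invariant state on the singular
Grassmannians `SGr σ J j`, `j ≥ 1`, under the lattices of every group between `GT σ ε J` and
`FormGroup σ J`, over every local field; the fields `zo`, `zo2`, `noinv`.
-/

set_option linter.all false

open Matrix Set Filter Topology

namespace Vale.Agent.P092.H44.HM

open Vale.Agent.P092.H303 (FormGroup)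
open Vale.Agent.P092.H714.Cl
open Vale.Agent.P092.H370.Po
open Vale.Agent.P092.H514.NI (Covol)
open Vale.Agent.P092.H76.Pur (NIS)

variable {n : Type} [Fintype n] [DecidableEq n] {k : Type} [NontriviallyNormedField k]
  {σ : k →+* k} {ε : k} {J : Matrix n n k} {j : ℕ} {G : Subgroup (SpecialLinearGroup n k)}

theorem span_smul_range {c : k} (hc : c ≠ 0) (v : Fin j → n → k) :
    Submodule.span k (range fun i => c • v i) = Submodule.span k (range v) := by
  refine le_antisymm ?_ ?_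
  · rw [Submodule.span_le]
    rintro _ ⟨i, rfl⟩
    exact Submodule.smul_mem _ _ (Submodule.subset_span ⟨i, rfl⟩)
  · rw [Submodule.span_le]
    rintro _ ⟨i, rfl⟩
    have h1 : v i = c⁻¹ • (c • v i) := by rw [smul_smul, inv_mul_cancel₀ hc, one_smul]
    rw [h1]
    exact Submodule.smul_mem _ _ (Submodule.subset_span ⟨i, rfl⟩)

theorem act_span_range (g : SpecialLinearGroup n k) (v : Fin j → n → k) :
    act g (Submodule.span k (range v)) = Submodule.span k (range fun i => v i ᵥ* g.1) := by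
  change (Submodule.span k (range v)).map g.1.vecMulLinear = _
  rw [Submodule.map_span, ← range_comp]
  rfl

theorem norm_hf_le (x y : n → k) :
    ‖hf σ J x y‖ ≤ ‖x‖ * ∑ i, ‖(J *ᵥ fun i => σ (y i)) i‖ := by
  unfold hf dotProduct
  refine (norm_sum_le _ _).trans ?_
  rw [Finset.mul_sum]
  refine Finset.sum_le_sum fun i _ => ?_
  rw [norm_mul]
  exact mul_le_mul_of_nonneg_right (norm_le_pi_norm x i) (norm_nonneg _)

/-- small elements of the fixed field -/
theorem exists_small (hF : Frm σ ε J) (hσ : ∀ x, ‖σ x‖ = ‖x‖) {δ : ℝ} (hδ : 0 < δ) :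
    ∃ r : k, r ≠ 0 ∧ σ r = r ∧ ‖r‖ ≤ 1 ∧ ‖r‖ < δ := by
  obtain ⟨r, hr, hr1⟩ := exists_fix hF hσ
  have hr0 : 0 < ‖r‖ := one_pos.trans hr1
  have h1 : ‖r‖⁻¹ < 1 := inv_lt_one_of_one_lt₀ hr1
  obtain ⟨m, hm⟩ := exists_pow_lt_of_lt_one hδ h1
  refine ⟨(r⁻¹) ^ m, pow_ne_zero _ (inv_ne_zero (norm_pos_iff.1 hr0)), ?_, ?_, ?_⟩
  · rw [map_pow, map_inv₀, hr]
  · rw [norm_pow, norm_inv]
    exact pow_le_one₀ (by positivity) h1.le
  · rw [norm_pow, norm_inv]
    exact hm

section main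

variable (hσ : ∀ x, ‖σ x‖ = ‖x‖) (hF : Frm σ ε J) (hG : GT σ ε J ≤ G)
  (hGF : G ≤ FormGroup σ J)

include hσ hF hG

/-- **contraction** -/
theorem contr {u w : Fin j → n → k} (h : Hyp σ J u w) (X₀ : SGr σ J j)
    (hu : LinearIndependent k u) (hX : X₀.S = Submodule.span k (range u))
    {W : Set (SGr σ J j)} (hW : W ∈ 𝓝 X₀) :
    ∃ b : G, ∀ X ∈ UU σ J u w, Subgroup.inclusion hGF b • X ∈ W := by
  obtain ⟨δ, hδ, hnear⟩ := near_u h X₀ hu hX hW
  set M : ℝ := 1 + ∑ l, 2 * (‖ε‖ * ∑ i, ‖(J *ᵥ fun i => σ (u l i)) i‖) * ‖w l‖ with hM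
  have hM0 : 0 < M := by
    have : 0 ≤ ∑ l, 2 * (‖ε‖ * ∑ i, ‖(J *ᵥ fun i => σ (u l i)) i‖) * ‖w l‖ :=
      Finset.sum_nonneg fun l _ => by positivity
    linarith
  obtain ⟨r, hr0, hr, hr1, hrM⟩ := exists_small hF hσ (div_pos hδ hM0)
  obtain ⟨s, hs0, hs⟩ := hF.cc
  have hL : (List.finRange j).Nodup := List.nodup_finRange j
  set B : SpecialLinearGroup n k := bt σ ε J u w s r (List.finRange j) with hB
  have hBG : B ∈ G := hG (bt_mem hF h hs0 hs hr0 hr _)
  refine ⟨⟨B⁻¹, inv_mem hBG⟩, ?_⟩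
  rintro X ⟨ρ, hρw, hρ1, hXρ⟩
  refine hnear (fun i => r • (ρ i ᵥ* B.1)) _ ?_ ?_
  · -- smallness
    have h1 : ∀ i, ‖ρ i ᵥ* B.1‖ ≤ M := by
      intro i
      have h2 : ‖ρ i‖ ≤ 1 := (norm_le_pi_norm ρ i).trans hρ1
      rw [hB, bt_y hF h hs0 hr0 _ hL (fun i => List.mem_finRange i) (fun l => hρw i l)]
      refine (norm_add_le _ _).trans (add_le_add h2 ?_)
      refine (norm_sum_le _ _).trans (Finset.sum_le_sum fun l _ => ?_)
      rw [norm_smul]
      refine mul_le_mul_of_nonneg_right ?_ (norm_nonneg _)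
      rw [norm_mul, norm_mul]
      have h3 : ‖r - 1‖ ≤ 2 := by
        refine (norm_sub_le _ _).trans ?_
        rw [norm_one]
        linarith
      have h4 : ‖hf σ J (ρ i) (u l)‖ ≤ ∑ i, ‖(J *ᵥ fun i => σ (u l i)) i‖ := by
        refine (norm_hf_le _ _).trans ?_
        exact mul_le_of_le_one_left (Finset.sum_nonneg fun _ _ => norm_nonneg _) h2
      exact mul_le_mul h3 (mul_le_mul_of_nonneg_left h4 (norm_nonneg _)) (by positivity)
        (by norm_num)
    have h5 : ‖fun i => r • (ρ i ᵥ* B.1)‖ ≤ ‖r‖ * M := by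
      refine (pi_norm_le_iff_of_nonneg (by positivity)).2 fun i => ?_
      rw [norm_smul]
      exact mul_le_mul_of_nonneg_left (h1 i) (norm_nonneg _)
    refine h5.trans_lt ?_
    exact (lt_div_iff₀ hM0).1 hrM
  · -- the span
    rw [smul_S]
    change act (B⁻¹)⁻¹ X.S = _
    rw [inv_inv, hXρ, act_span_range]
    rw [← span_smul_range (inv_ne_zero hr0) (u + fun i => r • (ρ i ᵥ* B.1))]
    congr 2
    funext i
    change (u i + ρ i) ᵥ* B.1 = r⁻¹ • (u i + r • (ρ i ᵥ* B.1))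
    rw [add_vecMul, hB, bt_u hF h hs0 hr0 _ hL (List.mem_finRange i), smul_add, smul_smul r⁻¹ r,
      inv_mul_cancel₀ hr0, one_smul]

/-- the orbit is not isolated -/
theorem moves {u w : Fin j → n → k} (h : Hyp σ J u w) (hj : 1 ≤ j) (X₀ : SGr σ J j)
    (hX : X₀.S = Submodule.span k (range u)) {W : Set (SGr σ J j)} (hW : W ∈ 𝓝 X₀) :
    ∃ g : G, Subgroup.inclusion hGF g • X₀ ∈ W ∧ Subgroup.inclusion hGF g • X₀ ≠ X₀ := by
  have hσc := continuous_of_norm hσ
  obtain ⟨c₀, hc0, hc⟩ := hF.cc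
  obtain ⟨r, hr, hr1⟩ := exists_fix hF hσ
  have hr0 : r ≠ 0 := norm_pos_iff.1 (one_pos.trans hr1)
  let i₀ : Fin j := ⟨0, hj⟩
  let c : ℕ → k := fun m => (r⁻¹) ^ m * c₀
  have hcm : ∀ m, c m + ε * σ (c m) = 0 := fun m =>
    cc_fix (by rw [map_pow, map_inv₀, hr]) hc
  have hct : Tendsto c atTop (𝓝 0) := by
    have h1 : Tendsto (fun m : ℕ => (r⁻¹) ^ m) atTop (𝓝 0) :=
      tendsto_pow_atTop_nhds_zero_of_norm_lt_one (by
        rw [norm_inv]; exact inv_lt_one_of_one_lt₀ hr1)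
    have h2 := h1.mul_const c₀
    rwa [zero_mul] at h2
  have hww : hf σ J (w i₀) (w i₀) = 0 := h.ww i₀ i₀
  have h1 := tendsto_tg_one hσc hG hww hcm hct
  have h2 : Tendsto (fun m => Subgroup.inclusion hGF (tg hG hww (hcm m)) • X₀) atTop (𝓝 X₀) := by
    have h3 : Continuous fun g : G => Subgroup.inclusion hGF g • X₀ := by
      have h4 : Continuous (Subgroup.inclusion hGF) := continuous_inclusion hGF
      exact h4.smul continuous_const
    have h5 := (h3.tendsto 1).comp h1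
    rw [map_one, one_smul] at h5
    exact h5
  obtain ⟨m, hm⟩ := (h2.eventually hW).exists
  refine ⟨_, hm, fun he => ?_⟩
  -- the moved space is different
  set g := tg hG hww (hcm m) with hg
  have e1 : act g.1⁻¹ X₀.S = X₀.S := congrArg SGr.S he
  have e2 : act g.1 X₀.S = X₀.S := by
    conv_lhs => rw [← e1]
    rw [act_act_inv]
  have hui : u i₀ ∈ X₀.S := by
    rw [hX]
    exact Submodule.subset_span ⟨i₀, rfl⟩
  have h6 : u i₀ ᵥ* g.1.1 ∈ X₀.S := by
    have := vecMul_mem_act (g := g.1) hui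
    rwa [e2] at this
  rw [hg, tg_val, vecMul_tv hww, h.uw, if_pos rfl, mul_one] at h6
  have h7 := X₀.sing _ hui _ h6
  rw [hf_add_right, h.uu, zero_add, hf_smul_right, h.uw, if_pos rfl, mul_one] at h7
  have h8 : c m ≠ 0 := mul_ne_zero (pow_ne_zero _ (inv_ne_zero hr0)) hc0
  exact h8 ((map_eq_zero σ).1 h7)

/-- transitivity -/
theorem trans_G (X X₀ : SGr σ J j) : ∃ g : G, Subgroup.inclusion hGF g • X = X₀ := by
  obtain ⟨g, hg, h1, -⟩ := trans_SGr hF X X₀
  exact ⟨⟨g.1, hG hg⟩, h1⟩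

/-- **No invariant state** on the singular Grassmannians. -/
theorem nis_SGr [ProperSpace k] [Fact (Continuous σ)] (hj : 1 ≤ j) {Γ : Type*} [Group Γ]
    (q : Γ →* G) (hΓ : Covol q.range) :
    NIS fun (γ : Γ) (X : SGr σ J j) => Subgroup.inclusion hGF (q γ) • X := by
  rcases isEmpty_or_nonempty (SGr σ J j) with hE | ⟨⟨X₀⟩⟩
  · intro φ _ h1 _
    have e : (1 : C(SGr σ J j, ℂ)) = 0 := by
      ext x
      exact hE.elim x
    rw [e, map_zero] at h1
    exact zero_ne_one h1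
  obtain ⟨v, hv⟩ := H100.Gr.sp_surj (k := k) (ι := n) (j := j) X₀.1
  have hX : X₀.S = Submodule.span k (range v.1) := congrArg Subtype.val hv.symm
  have hS : Sing σ J (Submodule.span k (range v.1)) := by
    rw [← hX]
    exact X₀.sing
  obtain ⟨w, hw⟩ := exists_dual hF v.2 hS
  have hi : Continuous (Subgroup.inclusion hGF) := continuous_inclusion hGF
  exact nis_of_attr (Subgroup.inclusion hGF) hi q hΓ X₀ (UU σ J v.1 w)
    (UU_mem hw (continuous_of_norm hσ) X₀ v.2 hX)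
    (fun W hW => contr hσ hF hG hGF hw X₀ v.2 hX hW)
    (fun W hW => moves hσ hF hG hGF hw hj X₀ hX hW)
    fun X => trans_G hσ hF hG hGF X X₀

end main

/-- the same for the whole isometry group -/
theorem nis_form (hσ : ∀ x, ‖σ x‖ = ‖x‖) (hF : Frm σ ε J) [ProperSpace k]
    [Fact (Continuous σ)] (hj : 1 ≤ j) {Γ : Type*} [Group Γ] (q : Γ →* FormGroup σ J)
    (hΓ : Covol q.range) : NIS fun (γ : Γ) (X : SGr σ J j) => q γ • X :=
  nis_SGr hσ hF (GT_le hF) le_rfl hj q hΓ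

end Vale.Agent.P092.H44.HM
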