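import Vale.Agent.P092.H44.HMpH

/-!
P092, stage CL-O (forms of any kind), rows NIS and PROX (helper44), part I: density of opposition,
no invariant states, proximality.
-/

set_option linter.all false

open Matrix Set Filter Topology Module

namespace Vale.Agent.P092.H44.HM

open Vale.Agent.P092.H303 (FormGroup)
open Vale.Agent.P092.H714.Cl
open Vale.Agent.P092.H714.Sg (Fm)
open Vale.Agent.P092.H370.Po
open Vale.Agent.P092.H370.Fo (Fo EU EU_le)
open Vale.Agent.P092.H514.NI (Covol)
open Vale.Agent.P092.H76.Pur (NIS)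
open Vale.Agent.P092.H631.P2 (OppS Op₁ opp_open not_opp_iff)

variable {n : Type} [Fintype n] [DecidableEq n] {k : Type} [NontriviallyNormedField k]
  {σ : k →+* k} {ε : k} {J : Matrix n n k} {j : ℕ}

theorem sing_span_of (hF : Fm σ ε J) {v : Fin j → n → k}
    (h : ∀ a b, hf σ J (v a) (v b) = 0) : Sing σ J (Submodule.span k (range v)) := by
  intro x hx y hy
  have h1 : ∀ a, hf σ J x (v a) = 0 := by
    intro a
    refine hF.symm0 (hf_span_zero (fun b => ?_) x hx)
    exact h a b
  exact hf_span_zero h1 y hy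

/-- **density of opposition**, forms of any kind -/
theorem opp_dense_fo (hF : Fo σ ε J) (hσ : Continuous σ) {U : Set (SGr σ J j)} (hU : IsOpen U)
    (hUn : U.Nonempty) (Y : SGr σ J j) : ∃ X ∈ U, OppS X Y := by
  obtain ⟨X, hX⟩ := hUn
  obtain ⟨N, hN⟩ : ∃ N, finrank k ↥(X.S ⊓ perp σ J Y.S) = N := ⟨_, rfl⟩
  induction N using Nat.strong_induction_on generalizing X with
  | _ N ih =>
    by_cases h : OppS X Y
    · exact ⟨X, hX, h⟩
    obtain ⟨m, hm, x, y, f, q, β, b, hxX, hyY, hxY, hyX, hbli, hbX, hxb, hxf, hfy, hff, hbf, hbq,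
      hxq, hfq, hβ, hiso⟩ := exists_curve hF h
    subst hm
    have hsym := fun {a b : n → k} (h : hf σ J a b = 0) => hF.fm.symm0 h
    have he := hF.fm.eps
    have hse := hF.fm.seps
    have hfx : hf σ J f x = ε := by rw [hF.fm.herm, hxf, map_one, mul_one]
    have hε0 : ε ≠ 0 := fun h0 => by
      rw [h0, mul_zero] at he
      exact zero_ne_one he
    set p : k → n → k := fun s => x + (s * σ s * β) • f + s • q with hp
    have hpp : ∀ s, hf σ J (p s) (p s) = 0 := by
      intro s
      change hf σ J (x + (s * σ s * β) • f + s • q) (x + (s * σ s * β) • f + s • q) = 0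
      simp only [hf_add_left, hf_add_right, hf_smul_left, hf_smul_right, X.sing x hxX x hxX, hff,
        hxf, hfx, hxq, hfq, hsym hxq, hsym hfq, mul_zero, add_zero, zero_add, mul_one, map_mul,
        hF.fm.inv]
      linear_combination (s * σ s) * hiso
    have hbp : ∀ s i, hf σ J (b i) (p s) = 0 := by
      intro s i
      change hf σ J (b i) (x + (s * σ s * β) • f + s • q) = 0
      rw [hf_add_right, hf_add_right, hf_smul_right, hf_smul_right, X.sing _ (hbX i) x hxX, hbf,
        hbq, mul_zero, mul_zero, add_zero, add_zero]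
    have hpf : ∀ s, hf σ J (p s) f = 1 := by
      intro s
      change hf σ J (x + (s * σ s * β) • f + s • q) f = 1
      rw [hf_add_left, hf_add_left, hf_smul_left, hf_smul_left, hxf, hff, hsym hfq, mul_zero,
        mul_zero, add_zero, add_zero]
    have hpy : ∀ s, hf σ J (p s) y = s * (σ s * (β * ε) + hf σ J q y) := by
      intro s
      change hf σ J (x + (s * σ s * β) • f + s • q) y = _
      rw [hf_add_left, hf_add_left, hf_smul_left, hf_smul_left, hyX x hxX, hfy]
      ring
    -- frames
    obtain ⟨v, hv⟩ : ∃ v : Fin (m + 1) → n → k, v = Fin.cons x b := ⟨_, rfl⟩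
    have hvli : LinearIndependent k v := by
      rw [hv]
      exact linearIndependent_finCons.2 ⟨hbli, hxb⟩
    have hXv : X.S = Submodule.span k (range v) := by
      symm
      refine Submodule.eq_of_le_of_finrank_eq ?_ ?_
      · rw [Submodule.span_le]
        rintro _ ⟨i, rfl⟩
        rw [hv]
        refine Fin.cases ?_ (fun i => ?_) i
        · rw [Fin.cons_zero]
          exact hxX
        · rw [Fin.cons_succ]
          exact hbX i
      · rw [finrank_span_eq_card hvli, Fintype.card_fin, X.dim]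
    have hsli : ∀ s, LinearIndependent k (Fin.cons (p s) b : Fin (m + 1) → n → k) := by
      intro s
      refine linearIndependent_finCons.2 ⟨hbli, fun hmem => ?_⟩
      have h1 : ∀ z ∈ Submodule.span k (range b), hf σ J z f = 0 := by
        intro z hz
        refine hsym (hf_span_zero (fun a => ?_) z hz)
        exact hsym (hbf a)
      have h2 := h1 _ hmem
      rw [hpf] at h2
      exact one_ne_zero h2
    have hsS : ∀ s, Sing σ J
        (Submodule.span k (range (Fin.cons (p s) b : Fin (m + 1) → n → k))) := by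
      intro s
      refine sing_span_of hF.fm fun a c => ?_
      refine Fin.cases ?_ (fun a => ?_) a
      · refine Fin.cases ?_ (fun c => ?_) c
        · rw [Fin.cons_zero]
          exact hpp s
        · rw [Fin.cons_zero, Fin.cons_succ]
          exact hsym (hbp s c)
      · refine Fin.cases ?_ (fun c => ?_) c
        · rw [Fin.cons_zero, Fin.cons_succ]
          exact hbp s a
        · rw [Fin.cons_succ, Fin.cons_succ]
          exact X.sing _ (hbX a) _ (hbX c)
    let Xs : k → SGr σ J (m + 1) := fun s =>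
      SGr.mk' (Submodule.span k (range (Fin.cons (p s) b : Fin (m + 1) → n → k))) (hsS s)
        (by rw [finrank_span_eq_card (hsli s), Fintype.card_fin])
    -- convergence
    obtain ⟨w, hw⟩ := exists_dual_fm hF.fm hvli (by rw [← hXv]; exact X.sing)
    obtain ⟨δ, hδ, hnear⟩ := near_u hw X hvli hXv (hU.mem_nhds hX)
    have hc : ∀ᶠ s in 𝓝 (0 : k), Xs s ∈ U := by
      have h1 : Continuous fun s : k => ‖(s * σ s * β) • f + s • q‖ := by fun_prop
      have h2 := h1.tendsto 0
      rw [zero_mul, zero_mul, zero_smul, zero_smul, add_zero, norm_zero] at h2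
      filter_upwards [h2.eventually (gt_mem_nhds hδ)] with s hs
      refine hnear (Fin.cons ((s * σ s * β) • f + s • q) 0) (Xs s) ?_ ?_
      · rw [pi_norm_lt_iff hδ]
        intro i
        refine Fin.cases ?_ (fun i => ?_) i
        · rw [Fin.cons_zero]
          exact hs
        · rw [Fin.cons_succ]
          change ‖(0 : n → k)‖ < δ
          rwa [norm_zero]
      · change Submodule.span k (range (Fin.cons (p s) b : Fin (m + 1) → n → k)) = _
        congr 2
        funext i
        rw [hv]
        refine Fin.cases ?_ (fun i => ?_) i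
        · change x + (s * σ s * β) • f + s • q = x + ((s * σ s * β) • f + s • q)
          rw [add_assoc]
        · change b i = b i + (0 : n → k)
          rw [add_zero]
    have hne : ∀ᶠ s in 𝓝[≠] (0 : k), hf σ J (p s) y ≠ 0 := by
      have h0 : ∀ᶠ s : k in 𝓝[≠] 0, s ≠ 0 := eventually_mem_nhdsWithin
      by_cases hq : hf σ J q y = 0
      · filter_upwards [h0] with s hs
        rw [hpy, hq, add_zero]
        exact mul_ne_zero hs (mul_ne_zero (by rwa [Ne, map_eq_zero]) (mul_ne_zero hβ hε0))
      · have h1 : Continuous fun s : k => σ s * (β * ε) + hf σ J q y := by fun_prop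
        have h2 := h1.tendsto 0
        rw [map_zero, zero_mul, zero_add] at h2
        have h3 := (h2.eventually (isOpen_ne.mem_nhds hq)).filter_mono
          (nhdsWithin_le_nhds (s := {0}ᶜ))
        filter_upwards [h0, h3] with s hs hs'
        rw [hpy]
        exact mul_ne_zero hs hs'
    obtain ⟨s, hs1, hs2⟩ := ((hc.filter_mono nhdsWithin_le_nhds).and hne).exists
    refine ih _ ?_ (Xs s) hs1 rfl
    rw [← hN]
    have key : (Xs s).S ⊓ perp σ J Y.S ≤ Submodule.span k (range b) ⊓ perp σ J Y.S := by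
      rintro z ⟨hz1, hz2⟩
      refine ⟨?_, hz2⟩
      change z ∈ Submodule.span k (range (Fin.cons (p s) b : Fin (m + 1) → n → k)) at hz1
      rw [Fin.range_cons, Submodule.mem_span_insert] at hz1
      obtain ⟨c, z', hz', rfl⟩ := hz1
      have h1 : hf σ J (c • p s + z') y = 0 := hsym (mem_perp.1 hz2 y hyY)
      have hbX' : Submodule.span k (range b) ≤ X.S := by
        rw [Submodule.span_le]
        rintro _ ⟨i, rfl⟩
        exact hbX i
      rw [hf_add_left, hf_smul_left, hyX z' (hbX' hz'), add_zero] at h1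
      rw [(mul_eq_zero.1 h1).resolve_right hs2, zero_smul, zero_add]
      exact hz'
    refine Submodule.finrank_lt_finrank_of_lt (lt_of_le_of_lt key (lt_of_le_of_ne ?_ ?_))
    · refine inf_le_inf_right _ ?_
      rw [Submodule.span_le]
      rintro _ ⟨i, rfl⟩
      exact hbX i
    · intro he
      have h1 : x ∈ X.S ⊓ perp σ J Y.S := ⟨hxX, mem_perp.2 fun a ha => hsym (hxY a ha)⟩
      rw [← he] at h1
      exact hxb h1.1

/-- a space of positive dimension is not opposite to itself -/
theorem not_opp_self (hj : 1 ≤ j) (X : SGr σ J j) : ¬ OppS X X := by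
  intro h
  have h1 : X.S = ⊥ := by
    rw [Submodule.eq_bot_iff]
    intro x hx
    exact h x hx fun y hy => X.sing x hx y hy
  have h2 := X.dim
  rw [h1, finrank_bot] at h2
  omega

section main

variable {D : Type} [Group D] [TopologicalSpace D] {θ : D →* FormGroup σ J}

/-- transitivity on the opposite pairs gives transitivity -/
theorem trans_of_opp (hF : Fm σ ε J) (hO : ∀ X Y X' Y' : SGr σ J j, OppS X Y → OppS X' Y' →
      ∃ g : D, θ g • X = X' ∧ θ g • Y = Y') (X X' : SGr σ J j) : ∃ g : D, θ g • X = X' := by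
  obtain ⟨u, w, Y, -, h, hX, hY⟩ := exists_base hF X
  obtain ⟨u', w', Y', -, h', hX', hY'⟩ := exists_base hF X'
  obtain ⟨g, hg, -⟩ := hO X Y X' Y' (opp_of_hyp h hX hY) (opp_of_hyp h' hX' hY')
  exact ⟨g, hg⟩

variable [IsTopologicalGroup D]

/-- **No invariant state** on the singular Grassmannians, forms of any kind. -/
theorem nis_fm [ProperSpace k] [Fact (Continuous σ)] (hF : Fo σ ε J) (hθ : Continuous θ)
    (hT : TorD σ ε J θ) (hO : ∀ X Y X' Y' : SGr σ J j, OppS X Y → OppS X' Y' →
      ∃ g : D, θ g • X = X' ∧ θ g • Y = Y') (hj : 1 ≤ j) {Γ : Type*} [Group Γ]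
    (q : Γ →* D) (hΓ : Covol q.range) : NIS fun (γ : Γ) (X : SGr σ J j) => θ (q γ) • X := by
  have hσ : Continuous σ := Fact.out
  rcases isEmpty_or_nonempty (SGr σ J j) with hE | ⟨⟨X₀⟩⟩
  · intro φ _ h1 _
    have e : (1 : C(SGr σ J j, ℂ)) = 0 := by
      ext x
      exact hE.elim x
    rw [e, map_zero] at h1
    exact zero_ne_one h1
  obtain ⟨u, w, Y, hu, h, hX, hY⟩ := exists_base hF.fm X₀
  obtain ⟨b, hb, hc⟩ := contr_fm hF.fm hT h X₀ hu hX
  refine nis_of_attr θ hθ q hΓ X₀ (UU σ J u w) (UU_mem h hσ X₀ hu hX) (fun W hW => ?_)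
    (fun W hW => ?_) fun X => trans_of_opp hF.fm hO X X₀
  · obtain ⟨N, hN⟩ := (hc 1 W hW).exists
    exact ⟨b ^ N, fun X ⟨ρ, h1, h2, h3⟩ => hN ρ X h1 h2 h3⟩
  · obtain ⟨X₁, hX₁, h1⟩ := opp_dense_fo hF hσ (opp_open hσ Y) ⟨X₀, opp_of_hyp h hX hY⟩ X₀
    have hne : X₁ ≠ X₀ := by
      rintro rfl
      exact not_opp_self hj _ h1
    obtain ⟨v, hv, hX₁v⟩ := exists_nf hY hX₁
    obtain ⟨g, hg⟩ := trans_of_opp hF.fm hO X₀ X₁
    obtain ⟨N, hN⟩ := (hc ‖v - u‖ W hW).exists
    have h2 : θ (b ^ N) • X₁ ∈ W := by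
      refine hN (v - u) X₁ (fun i l => ?_) le_rfl (by rw [add_sub_cancel]; exact hX₁v)
      change hf σ J (v i - u i) (w l) = 0
      rw [hf_sub_left, hv, h.uw, sub_self]
    refine ⟨b ^ N * g, by rw [map_mul, mul_smul, hg]; exact h2, fun he => hne ?_⟩
    rw [map_mul, mul_smul, hg, ← hb N] at he
    exact smul_left_cancel _ he

end main

end Vale.Agent.P092.H44.HM
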