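import Vale.Agent.P092.H370.Po3
import Vale.Agent.P092.H714.Cl3
import Vale.Agent.P092.RC.Defs

/-!
P092, TEAM P, stage 2, row [P2-HM] (helper44), part A: Moore sets in the classical groups.
The fixer of the vectors orthogonal to one isotropic vector is a Moore set; hence so are the
stabilisers of one singular subspace and of several singular subspaces orthogonal to a common
isotropic vector (in particular contained in a common singular subspace, or containing one).
-/

set_option linter.all false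

open Matrix Filter Topology Set

namespace Vale.Agent.P092.H44.HM

open Vale.Agent.P092.H303 (FormGroup)
open Vale.Agent.P092.H714.Cl
open Vale.Agent.P092.H370.Po
open Vale.Agent.P092.H933 (Len)

section len

variable {G : Type} [Group G] [TopologicalSpace G] {E : Type} [NormedAddCommGroup E]
  [InnerProductSpace ℂ E] {u : G →* (E →L[ℂ] E)}

/-- the length function of a vector -/
theorem len_of (hu : ∀ g ξ, ‖u g ξ‖ = ‖ξ‖) (hc : ∀ ξ, Continuous fun g => u g ξ) (ξ : E) :
    Len fun g => ‖u g ξ - ξ‖ where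
  one := by
    rw [map_one]
    change ‖ξ - ξ‖ = 0
    rw [sub_self, norm_zero]
  inv g := by
    have h1 : u g (u g⁻¹ ξ) = ξ := by
      have h2 : u g * u g⁻¹ = 1 := by rw [← map_mul, mul_inv_cancel, map_one]
      have h3 := congrArg (fun T : E →L[ℂ] E => T ξ) h2
      exact h3
    rw [← hu g (u g⁻¹ ξ - ξ), map_sub, h1, norm_sub_rev]
  mul g h := by
    rw [map_mul]
    change ‖u g (u h ξ) - ξ‖ ≤ _
    have e : u g (u h ξ) - ξ = (u g ξ - ξ) + u g (u h ξ - ξ) := by
      rw [map_sub]; abel
    rw [e]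
    refine (norm_add_le _ _).trans ?_
    rw [hu]
  cont := by
    have h : Continuous fun g => ‖u g ξ - ξ‖ := ((hc ξ).sub continuous_const).norm
    have h2 := h.tendsto 1
    have e : ‖u 1 ξ - ξ‖ = 0 := by
      rw [map_one]
      change ‖ξ - ξ‖ = 0
      rw [sub_self, norm_zero]
    rwa [e] at h2

end len

variable {n : Type} [Fintype n] [DecidableEq n] {k : Type} [NontriviallyNormedField k]
  {σ : k →+* k} {ε : k} {J : Matrix n n k} {G : Subgroup (SpecialLinearGroup n k)}

theorem moore_mono {G : Type} [Group G] [TopologicalSpace G] {S T : Set G} (h : RC.Moore S)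
    (hST : S ⊆ T) : RC.Moore T :=
  fun E _ _ _ u hu hc ξ hξ => h E u hu hc ξ fun g hg => hξ g (hST hg)

section moore

variable (hσ : ∀ x, ‖σ x‖ = ‖x‖) (hF : Frm σ ε J) (hG : GT σ ε J ≤ G)
  (hGF : G ≤ FormGroup σ J) (hGc : G ≤ (GT σ ε J).topologicalClosure)

include hσ hF hGF hGc

/-- the root group of an isotropic vector -/
theorem moore_root {u : n → k} (hu0 : u ≠ 0) (hu : hf σ J u u = 0) :
    RC.Moore {g : G | ∃ c, ∃ hc : c + ε * σ c = 0, g = tg hG hu hc} := by
  intro E _ _ _ U hU hUc ξ hξ g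
  have h := mautner hσ hF hG hGF (len_of hU hUc ξ) hGc hu0 hu (fun c hc => by
    rw [hξ _ ⟨c, hc, rfl⟩, sub_self, norm_zero]) g
  exact sub_eq_zero.1 (norm_eq_zero.1 h)

include hG

/-- the fixer of the vectors orthogonal to an isotropic vector -/
theorem moore_perp {u : n → k} (hu0 : u ≠ 0) (hu : hf σ J u u = 0) :
    RC.Moore {g : G | ∀ x, hf σ J x u = 0 → x ᵥ* g.1.1 = x} := by
  refine moore_mono (moore_root hσ hF hG hGF hGc hu0 hu) ?_
  rintro g ⟨c, hc, rfl⟩ x hx
  rw [tg_val, vecMul_tv hu, hx, mul_zero, zero_smul, add_zero]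

/-- the fixer of a nonzero singular space -/
theorem moore_fix {X : Submodule k (n → k)} (hX : Sing σ J X) (h0 : X ≠ ⊥) :
    RC.Moore {g : G | ∀ x ∈ X, x ᵥ* g.1.1 = x} := by
  obtain ⟨u, hu, hu0⟩ := Submodule.exists_mem_ne_zero_of_ne_bot h0
  refine moore_mono (moore_perp hσ hF hG hGF hGc hu0 (hX.zero hu)) ?_
  intro g hg x hx
  exact hg x (hX x hx u hu)

omit hF hGc hG in
theorem ne_bot {j : ℕ} (hj : 1 ≤ j) (X : SGr σ J j) : X.S ≠ ⊥ := by
  intro h
  have h1 := X.dim
  rw [h, finrank_bot] at h1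
  omega

omit hσ hF hGc hG in
/-- an element fixing the vectors of a singular space fixes its subspaces -/
theorem smul_of_fix {j : ℕ} {g : FormGroup σ J} {X : SGr σ J j}
    (h : ∀ x ∈ X.S, x ᵥ* g.1.1 = x) : g • X = X := by
  refine SGr.ext ?_
  rw [smul_S]
  refine act_of_fix fun x hx => ?_
  have h1 := vecMul_cancel_inv x g.1
  rwa [h x hx] at h1

/-- the stabiliser of a singular `j`-space, `j ≥ 1` -/
theorem moore_stab {j : ℕ} (hj : 1 ≤ j) (X : SGr σ J j) :
    RC.Moore {g : G | Subgroup.inclusion hGF g • X = X} := by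
  refine moore_mono (moore_fix hσ hF hG hGF hGc X.sing (ne_bot hσ hGF hj X)) ?_
  intro g hg
  exact smul_of_fix hGF (g := Subgroup.inclusion hGF g) hg

/-- the common stabiliser of all singular spaces contained in a given one -/
theorem moore_below {j : ℕ} (hj : 1 ≤ j) (X : SGr σ J j) :
    RC.Moore {g : G | ∀ i, ∀ A : SGr σ J i, Inc A X → Subgroup.inclusion hGF g • A = A} := by
  refine moore_mono (moore_fix hσ hF hG hGF hGc X.sing (ne_bot hσ hGF hj X)) ?_
  intro g hg i A hA
  exact smul_of_fix hGF (g := Subgroup.inclusion hGF g) fun x hx => hg x (hA hx)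

/-- the common stabiliser of all singular spaces orthogonal to a given one -/
theorem moore_col {j : ℕ} (hj : 1 ≤ j) (X : SGr σ J j) :
    RC.Moore {g : G | ∀ i, ∀ A : SGr σ J i, Col A X → Subgroup.inclusion hGF g • A = A} := by
  obtain ⟨u, hu, hu0⟩ := Submodule.exists_mem_ne_zero_of_ne_bot (ne_bot hσ hGF hj X)
  refine moore_mono (moore_perp hσ hF hG hGF hGc hu0 (X.sing.zero hu)) ?_
  intro g hg i A hA
  exact smul_of_fix hGF (g := Subgroup.inclusion hGF g) fun x hx => hg x (hA x hx u hu)

end moore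

end Vale.Agent.P092.H44.HM
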