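import Vale.Agent.P092.H514.NoInvRP
import Vale.Agent.P092.H76.PurA

/-!
P092, TEAM P, stage 2, row [P2-HM] (helper44), part B: no invariant state on a compact
homogeneous space with an attracting point, abstract form.
-/

set_option linter.all false

open MeasureTheory Topology Filter Set

namespace Vale.Agent.P092.H44.HM

open Vale.Agent.P092.H514.NI Vale.Agent.P092.H76.Pur

variable {E X : Type*} [Group E] [TopologicalSpace E] [IsTopologicalGroup E]
  [TopologicalSpace X] [MulAction E X] [ContinuousSMul E X] [CompactSpace X] [T2Space X]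
  {D : Type*} [Group D] [TopologicalSpace D] [IsTopologicalGroup D]

/-- **No invariant state, abstract form.** `x₀` has a neighbourhood `U` which elements of the group
throw into every neighbourhood of `x₀`, the orbit of `x₀` is not isolated at `x₀` and is the whole
space. -/
theorem no_inv_of_attr (θ : D →* E) (hθ : Continuous θ) (Γ : Subgroup D) (hΓ : Covol Γ)
    (x₀ : X) (U : Set X) (hU : U ∈ 𝓝 x₀)
    (hc : ∀ W ∈ 𝓝 x₀, ∃ b : D, ∀ x ∈ U, θ b • x ∈ W)
    (hm : ∀ W ∈ 𝓝 x₀, ∃ g : D, θ g • x₀ ∈ W ∧ θ g • x₀ ≠ x₀)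
    (ht : ∀ x : X, ∃ g : D, θ g • x = x₀)
    (φ : C(X, ℝ) →ₗ[ℝ] ℝ) (hpos : ∀ F : C(X, ℝ), 0 ≤ F → 0 ≤ φ F) (h1 : φ 1 = 1)
    (hinv : ∀ γ ∈ Γ, ∀ F : C(X, ℝ), φ (tr F (θ γ)) = φ F) : False := by
  classical
  obtain ⟨ν, hν0, hνf, hν⟩ := hΓ
  obtain ⟨C, hC, hCc, hCU⟩ := exists_mem_nhds_isClosed_subset (interior_mem_nhds.2 hU)
  obtain ⟨F, hF0, hF1, hF⟩ := exists_continuous_zero_one_of_isClosed
    (isOpen_interior (s := U)).isClosed_compl hCc (by
      rw [Set.disjoint_left]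
      intro x hx hx'
      exact hx (hCU hx'))
  have hFU : ∀ x, F x ≠ 0 → x ∈ U := by
    intro x hx
    by_contra h
    exact hx (hF0 fun h' => h (interior_subset h'))
  obtain ⟨g, hg, hgx⟩ := hm (interior C) (interior_mem_nhds.2 hC)
  obtain ⟨O1, O2, hO1, hO2, hx1, hx2, hd⟩ := t2_separation hgx.symm
  have hx0 : x₀ ∈ interior C := mem_interior_iff_mem_nhds.2 hC
  obtain ⟨c, hc1⟩ := hc (O1 ∩ interior C) ((hO1.inter isOpen_interior).mem_nhds ⟨hx1, hx0⟩)
  have hcont : Continuous fun x : X => θ g • x := continuous_const_smul _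
  obtain ⟨c', hc2⟩ := hc ((fun x : X => θ g • x) ⁻¹' (O2 ∩ interior C))
    (((hO2.inter isOpen_interior).preimage hcont).mem_nhds ⟨hx2, hg⟩)
  have ha : ∀ x, F (θ c⁻¹ • x) ≠ 0 → x ∈ O1 ∩ interior C := by
    intro x hx
    have h2 := hc1 _ (hFU _ hx)
    rwa [← mul_smul, ← map_mul, mul_inv_cancel, map_one, one_smul] at h2
  have hb : ∀ x, F (θ (g * c')⁻¹ • x) ≠ 0 → x ∈ O2 ∩ interior C := by
    intro x hx
    have h2 := hc2 _ (hFU _ hx)
    have e : θ g • θ c' • θ (g * c')⁻¹ • x = x := by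
      rw [← mul_smul, ← mul_smul, ← map_mul, ← map_mul, mul_inv_cancel, map_one, one_smul]
    change θ g • θ c' • θ (g * c')⁻¹ • x ∈ O2 ∩ interior C at h2
    rwa [e] at h2
  have hone : ∀ x, x ∈ interior C → F x = 1 := fun x hx => hF1 (interior_subset hx)
  have hcov : ∃ T : Finset D, ∀ x : X, ∃ g ∈ T, θ g • x ∈ interior C := by
    obtain ⟨T, hT⟩ := isCompact_univ.elim_finite_subcover
      (fun g : D => (fun x : X => θ g • x) ⁻¹' interior C)
      (fun g => isOpen_interior.preimage (continuous_const_smul (θ g))) (by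
        intro x _
        obtain ⟨g, hg⟩ := ht x
        refine mem_iUnion.2 ⟨g, ?_⟩
        change θ g • x ∈ interior C
        rwa [hg])
    refine ⟨T, fun x => ?_⟩
    obtain ⟨g, hg⟩ := mem_iUnion.1 (hT (mem_univ x))
    obtain ⟨hgT, hgx⟩ := mem_iUnion.1 hg
    exact ⟨g, hgT, hgx⟩
  obtain ⟨T, hT⟩ := hcov
  refine no_inv θ hθ Γ ν hν0 hνf hν F (fun x => (hF x).1) c⁻¹ (g * c')⁻¹ (fun x => ?_) T
    (fun x => ?_) φ hpos h1 hinv
  · by_cases h2 : F (θ c⁻¹ • x) = 0
    · by_cases h3 : F (θ (g * c')⁻¹ • x) = 0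
      · rw [h2, h3, add_zero]
        exact (hF x).1
      · rw [h2, zero_add, hone x (hb x h3).2]
        exact (hF _).2
    · have h4 := ha x h2
      have h3 : F (θ (g * c')⁻¹ • x) = 0 := by
        by_contra h5
        exact Set.disjoint_left.1 hd h4.1 (hb x h5).1
      rw [h3, add_zero, hone x h4.2]
      exact (hF _).2
  · obtain ⟨g, hgT, hgx⟩ := hT x
    have h2 : F (θ g • x) = 1 := hone _ hgx
    rw [← h2]
    exact Finset.single_le_sum (f := fun g : D => F (θ g • x)) (fun g _ => (hF _).1) hgT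

/-- **No invariant state**, in the letters of `H76.Pur`. -/
theorem nis_of_attr (θ : D →* E) (hθ : Continuous θ) {Γ : Type*} [Group Γ] (q : Γ →* D)
    (hΓ : Covol q.range) (x₀ : X) (U : Set X) (hU : U ∈ 𝓝 x₀)
    (hc : ∀ W ∈ 𝓝 x₀, ∃ b : D, ∀ x ∈ U, θ b • x ∈ W)
    (hm : ∀ W ∈ 𝓝 x₀, ∃ g : D, θ g • x₀ ∈ W ∧ θ g • x₀ ≠ x₀)
    (ht : ∀ x : X, ∃ g : D, θ g • x = x₀) :
    NIS fun (γ : Γ) (x : X) => θ (q γ) • x := by
  intro φ h0 h1 hinv
  let ψ : C(X, ℝ) →ₗ[ℝ] ℝ :=
    { toFun := fun F => (φ (toC F)).re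
      map_add' := fun F G => by
        have : toC (F + G) = toC F + toC G := by ext x; simp [toC]
        rw [this, map_add, Complex.add_re]
      map_smul' := fun c F => by
        have : toC (c • F) = (c : ℂ) • toC F := by ext x; simp [toC]
        rw [this, map_smul]
        simp }
  refine no_inv_of_attr θ hθ q.range hΓ x₀ U hU hc hm ht ψ (fun F hF => ?_) ?_ ?_
  · let G : C(X, ℝ) := ⟨fun x => Real.sqrt (F x), F.continuous.sqrt⟩
    have e : toC F = star (toC G) * toC G := by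
      ext x
      simp only [toC, ContinuousMap.coe_mk, ContinuousMap.mul_apply,
        ContinuousMap.star_apply, Complex.star_def, Complex.conj_ofReal, ← Complex.ofReal_mul, G]
      exact congrArg _ (Real.mul_self_sqrt (hF x)).symm
    change 0 ≤ (φ (toC F)).re
    rw [e]
    exact h0 _
  · have : toC (1 : C(X, ℝ)) = 1 := by ext x; simp [toC]
    change (φ (toC 1)).re = 1
    rw [this, h1, Complex.one_re]
  · rintro _ ⟨γ, rfl⟩ F
    change (φ (toC (tr F (θ (q γ))))).re = (φ (toC F)).re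
    exact congrArg Complex.re (hinv γ (toC (tr F (θ (q γ)))) (toC F) fun x => rfl).symm

end Vale.Agent.P092.H44.HM
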