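import Vale.Agent.P092.H44.HMpE
import Vale.Agent.P092.H702.TG2
import Vale.Agent.P092.H15.SpGT

/-!
P092, TEAM P, stage 2, row [P2-HM] (helper44), part F: the fields `moore`, `moore2`, `nis` (hence
`zo`, `zo2`, `noinv`) in the letters `YS`, `IS` of helper702 (index reversed) for the isometry
group `FormGroup σ J`, when the transvection group is dense in it.
-/

set_option linter.all false

open Matrix Set Filter Topology ContinuousLinearMap

namespace Vale.Agent.P092.H44.HM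

open Vale.Agent.P092.H303 (FormGroup)
open Vale.Agent.P092.H714.Cl
open Vale.Agent.P092.H370.Po
open Vale.Agent.P092.H514.NI (Covol)
open Vale.Agent.P092.H76.Pur (NIS)
open Vale.Agent.P092.H702.TG

variable {n : Type} [Fintype n] [DecidableEq n] {k : Type} [NontriviallyNormedField k]
  {σ : k →+* k} {ε : k} {J : Matrix n n k}

section fields

variable (hσ : ∀ x, ‖σ x‖ = ‖x‖) (hF : Frm σ ε J)
  (hGc : FormGroup σ J ≤ (GT σ ε J).topologicalClosure)

include hσ hF hGc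

/-- field `moore` -/
theorem mooreS [ProperSpace k] (r e : ℕ) (h1 : 1 ≤ e) (h2 : e ≤ r) (X : YS σ J r e) :
    RC.Moore {g : FormGroup σ J | g • X = X} :=
  moore_stab hσ hF (GT_le hF) le_rfl hGc (j := r + 1 - e) (by omega) X

/-- field `moore2` (two subspaces of a common singular subspace) -/
theorem moore2S [ProperSpace k] (r e e' e'' : ℕ) (h2 : e ≤ r) (A : YS σ J r e')
    (B : YS σ J r e'') (hX : ∃ X : YS σ J r e, IS e e' X A ∧ IS e e'' X B) :
    RC.Moore {g : FormGroup σ J | g • A = A ∧ g • B = B} := by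
  obtain ⟨X, hA, hB⟩ := hX
  refine moore_mono (moore_below hσ hF (GT_le hF) le_rfl hGc (j := r + 1 - e) (by omega) X) ?_
  intro g hg
  exact ⟨hg _ A hA, hg _ B hB⟩

/-- the same for two subspaces with a common nonzero subspace -/
theorem moore2S' [ProperSpace k] (r e e' e'' : ℕ) (h2 : e ≤ r) (A : YS σ J r e')
    (B : YS σ J r e'') (hX : ∃ X : YS σ J r e, IS e' e A X ∧ IS e'' e B X) :
    RC.Moore {g : FormGroup σ J | g • A = A ∧ g • B = B} := by
  obtain ⟨X, hA, hB⟩ := hX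
  refine moore_mono (moore_col hσ hF (GT_le hF) le_rfl hGc (j := r + 1 - e) (by omega) X) ?_
  intro g hg
  refine ⟨hg _ A ?_, hg _ B ?_⟩
  · intro a ha x hx
    exact A.sing a ha x (hA hx)
  · intro a ha x hx
    exact B.sing a ha x (hB hx)

end fields

/-- field `nis` -/
theorem nisS (hσ : ∀ x, ‖σ x‖ = ‖x‖) (hF : Frm σ ε J) [ProperSpace k] [Fact (Continuous σ)]
    (r e : ℕ) (h2 : e ≤ r) {Γ : Type*} [Group Γ] (q : Γ →* FormGroup σ J)
    (hΓ : Covol q.range) : NIS fun (γ : Γ) (X : YS σ J r e) => q γ • X :=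
  nis_form hσ hF (j := r + 1 - e) (by omega) q hΓ

section pic

variable {Γ K : Type} [Group Γ] [NormedAddCommGroup K] [InnerProductSpace ℂ K] [CompleteSpace K]
  {π : FormGroup σ J →* (K →L[ℂ] K)} {lamG : Γ →* (K →L[ℂ] K)} {W : Set (K →L[ℂ] K)} {Ω : K}

variable (hσ : ∀ x, ‖σ x‖ = ‖x‖) (hF : Frm σ ε J)
  (hGc : FormGroup σ J ≤ (GT σ ε J).topologicalClosure)

include hσ hF hGc

/-- field `zo` -/
theorem zoS [ProperSpace k] (hp : RC.Pic π lamG W Ω) (r e : ℕ) (h1 : 1 ≤ e) (h2 : e ≤ r)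
    (X : YS σ J r e) (P : K →L[ℂ] K) (a : adjoint P = P) (b : P * P = P)
    (c : ∀ γ, P * lamG γ = lamG γ * P) (d : ∀ w ∈ W, P * w = w * P)
    (f : ∀ g : FormGroup σ J, g • X = X → P * π g = π g * P) : P = 0 ∨ P = 1 :=
  H411.rk_zo hp (mooreS hσ hF hGc r e h1 h2 X) P a b c d fun g hg => f g hg

/-- field `zo2` -/
theorem zo2S [ProperSpace k] (hp : RC.Pic π lamG W Ω) (r e : ℕ) (h1 : 1 ≤ e) (h2 : e < r)
    (A B : YS σ J r (e + 1)) (hX : ∃ X : YS σ J r e, IS e (e + 1) X A ∧ IS e (e + 1) X B)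
    (P : K →L[ℂ] K) (a : adjoint P = P) (b : P * P = P)
    (c : ∀ γ, P * lamG γ = lamG γ * P) (d : ∀ w ∈ W, P * w = w * P)
    (f : ∀ g : FormGroup σ J, g • A = A → g • B = B → P * π g = π g * P) : P = 0 ∨ P = 1 :=
  H411.rk_zo hp (moore2S hσ hF hGc r e (e + 1) (e + 1) h2.le A B hX) P a b c d
    fun g hg => f g hg.1 hg.2

end pic

/-- the action of `Γ` on the singular subspaces through `q` -/
@[reducible] def actΓ {Γ : Type} [Group Γ] (q : Γ →* FormGroup σ J) (r e : ℕ) :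
    MulAction Γ (YS σ J r e) := MulAction.compHom (YS σ J r e) q

theorem ccsΓ [ProperSpace k] {Γ : Type} [Group Γ] (q : Γ →* FormGroup σ J) (r e : ℕ) :
    @ContinuousConstSMul Γ (YS σ J r e) _ (actΓ q r e).toSMul :=
  letI := actΓ q r e
  ⟨fun γ => continuous_const_smul (q γ)⟩

/-- field `noinv` -/
theorem noinvS [ProperSpace k] [Fact (Continuous σ)] (hσ : ∀ x, ‖σ x‖ = ‖x‖) (hF : Frm σ ε J)
    {H Γ K : Type} [Group H] [TopologicalSpace H] [Group Γ] [NormedAddCommGroup K]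
    [InnerProductSpace ℂ K] [CompleteSpace K] {π : H →* (K →L[ℂ] K)} {lamG : Γ →* (K →L[ℂ] K)}
    {W : Set (K →L[ℂ] K)} {Ω : K} (hp : RC.Pic π lamG W Ω)
    (q : Γ →* FormGroup σ J) (hΓ : Covol q.range) (r e : ℕ) (h2 : e ≤ r)
    (G : C(YS σ J r e, ℂ) →⋆ₐ[ℂ] (K →L[ℂ] K))
    (h3 : ∀ g f, π g * G f = G f * π g) (h4 : ∀ w ∈ W, ∀ f, w * G f = G f * w)
    (h5 : ∀ γ f, lamG γ * G f * lamG γ⁻¹ =
      G (f.comp ⟨fun y => q γ⁻¹ • y, continuous_const_smul (q γ⁻¹)⟩)) : False :=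
  letI := actΓ q r e
  haveI := ccsΓ q r e
  H411.rk_noinv hp (nisS hσ hF r e h2 q hΓ) G h3 h4 h5

section alt

/-- for an alternating form the isometry group is the transvection group -/
theorem alt_dense (h : H15.Alt J) :
    FormGroup (RingHom.id k) J ≤ (GT (RingHom.id k) (-1) J).topologicalClosure :=
  (H15.formGroup_eq_GT h).le.trans (Subgroup.le_topologicalClosure _)

end alt

end Vale.Agent.P092.H44.HM
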