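import Vale.Agent.P092.H44.HMpD
import Vale.Agent.P092.H370.Fo4

/-!
P092, stage CL-O (forms of any kind: symplectic, unitary, orthogonal), rows NIS and PROX
(helper44), part G: dual systems, dilations, contraction. `D` is a topological group which acts on
the singular Grassmannian through a homomorphism `θ : D →* FormGroup σ J` and contains an
unbounded dilation of every hyperbolic pair.
-/

set_option linter.all false

open Matrix Set Filter Topology

namespace Vale.Agent.P092.H44.HM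

open Vale.Agent.P092.H303 (FormGroup)
open Vale.Agent.P092.H714.Cl
open Vale.Agent.P092.H714.Sg (Fm)
open Vale.Agent.P092.H370.Po

section alg

variable {n : Type} [Fintype n] [DecidableEq n] {k : Type} [Field k]
  {σ : k →+* k} {ε : k} {J : Matrix n n k} {j : ℕ}

/-- **dual systems exist**, forms of any kind -/
theorem exists_dual_fm (hF : Fm σ ε J) {u : Fin j → n → k} (hu : LinearIndependent k u)
    (hS : Sing σ J (Submodule.span k (range u))) : ∃ w, Hyp σ J u w := by
  classical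
  have hmem : ∀ i, u i ∈ Submodule.span k (range u) := fun i => Submodule.subset_span ⟨i, rfl⟩
  have huu : ∀ i l, hf σ J (u i) (u l) = 0 := fun i l => hS _ (hmem i) _ (hmem l)
  have h1 : ∀ l, ∃ y, hf σ J y y = 0 ∧ ∀ i, hf σ J (u i) y = if i = l then 1 else 0 := by
    intro l
    have hn : u l ∉ Submodule.span k (u '' {l}ᶜ) := hu.notMem_span_image (by simp)
    have hY : ∀ y ∈ Submodule.span k (u '' {l}ᶜ), hf σ J y (u l) = 0 := by
      intro y hy
      have h2 : y ∈ Submodule.span k (range u) :=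
        Submodule.span_mono (image_subset_range _ _) hy
      exact hS _ h2 _ (hmem l)
    obtain ⟨v, hv, hv1, hvY⟩ := hF.partner (huu l l) hn hY
    refine ⟨v, hv, fun i => ?_⟩
    split_ifs with h
    · rw [h]; exact hv1
    · exact hvY _ (Submodule.subset_span ⟨i, h, rfl⟩)
  choose y hy hyu using h1
  let c : Fin j → Fin j → k := fun l m => if l < m then -hf σ J (y l) (y m) else 0
  have hyu' : ∀ l i, hf σ J (y l) (u i) = if i = l then ε else 0 := by
    intro l i
    rw [hF.herm, hyu]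
    split_ifs
    · rw [map_one, mul_one]
    · rw [map_zero, mul_zero]
  refine ⟨fun l => y l + ∑ m, c l m • u m, huu, fun l m => ?_, fun i l => ?_⟩
  · rw [hf_add_left, hf_add_right, hf_add_right, hf_sum_left, hf_sum_right]
    have e1 : ∑ p, σ (c m p) * hf σ J (y l) (u p) = σ (c m l) * ε := by
      simp only [hyu', mul_ite, mul_zero]
      rw [Finset.sum_ite_eq' Finset.univ l, if_pos (Finset.mem_univ _)]
    have e2 : ∑ p, c l p * hf σ J (u p) (y m) = c l m := by
      simp only [hyu, mul_ite, mul_zero, mul_one]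
      rw [Finset.sum_ite_eq' Finset.univ m, if_pos (Finset.mem_univ _)]
    have e3 : hf σ J (∑ p, c l p • u p) (∑ p, c m p • u p) = 0 := by
      rw [hf_sum_left]
      refine Finset.sum_eq_zero fun p _ => ?_
      rw [hf_sum_right]
      rw [Finset.sum_eq_zero fun q _ => by rw [huu, mul_zero], mul_zero]
    rw [e1, e2, e3, add_zero]
    rcases lt_trichotomy l m with h | h | h
    · have c1 : c l m = -hf σ J (y l) (y m) := if_pos h
      have c2 : c m l = 0 := if_neg h.asymm
      rw [c1, c2, map_zero, zero_mul, add_zero, add_neg_cancel]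
    · subst h
      have c1 : c l l = 0 := if_neg (lt_irrefl _)
      rw [c1, map_zero, zero_mul, hy, add_zero, add_zero]
    · have c1 : c l m = 0 := if_neg h.asymm
      have c2 : c m l = -hf σ J (y m) (y l) := if_pos h
      rw [c1, c2, add_zero, hF.herm (y m) (y l), map_neg]
      ring
  · rw [hf_add_right, hyu, hf_sum_right, Finset.sum_eq_zero fun q _ => by rw [huu, mul_zero],
      add_zero]

theorem Hyp.wu_fm (hF : Fm σ ε J) {u w : Fin j → n → k} (h : Hyp σ J u w) (i l : Fin j) :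
    hf σ J (w i) (u l) = if i = l then ε else 0 := by
  rw [hF.herm, h.uw]
  by_cases hil : i = l
  · rw [if_pos hil, if_pos hil.symm, map_one, mul_one]
  · rw [if_neg hil, if_neg (Ne.symm hil), map_zero, mul_zero]

/-- the dilation with the multipliers `c` -/
def dil (σ : k →+* k) (ε : k) (J : Matrix n n k) (u w : Fin j → n → k) (c : Fin j → k)
    (x : n → k) : n → k :=
  x + ∑ l, (((c l - 1) * hf σ J x (w l)) • u l + (((c l)⁻¹ - 1) * ε * hf σ J x (u l)) • w l)

section dil

variable (hF : Fm σ ε J) {u w : Fin j → n → k} (h : Hyp σ J u w)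

include hF h

theorem hf_dil_w (c : Fin j → k) (x : n → k) (m : Fin j) :
    hf σ J (dil σ ε J u w c x) (w m) = c m * hf σ J x (w m) := by
  unfold dil
  rw [hf_add_left, Finset.sum_add_distrib, hf_add_left, hf_sum_left, hf_sum_left]
  have e1 : ∑ i, (c i - 1) * hf σ J x (w i) * hf σ J (u i) (w m) =
      (c m - 1) * hf σ J x (w m) := by
    simp only [h.uw, mul_ite, mul_zero, mul_one]
    rw [Finset.sum_ite_eq' Finset.univ m, if_pos (Finset.mem_univ _)]
  have e2 : ∑ i, ((c i)⁻¹ - 1) * ε * hf σ J x (u i) * hf σ J (w i) (w m) = 0 :=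
    Finset.sum_eq_zero fun i _ => by rw [h.ww, mul_zero]
  rw [e1, e2]
  ring

theorem hf_dil_u (c : Fin j → k) (x : n → k) (m : Fin j) :
    hf σ J (dil σ ε J u w c x) (u m) = (c m)⁻¹ * hf σ J x (u m) := by
  unfold dil
  rw [hf_add_left, Finset.sum_add_distrib, hf_add_left, hf_sum_left, hf_sum_left]
  have e1 : ∑ i, (c i - 1) * hf σ J x (w i) * hf σ J (u i) (u m) = 0 :=
    Finset.sum_eq_zero fun i _ => by rw [h.uu, mul_zero]
  have e2 : ∑ i, ((c i)⁻¹ - 1) * ε * hf σ J x (u i) * hf σ J (w i) (u m) =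
      ((c m)⁻¹ - 1) * ε * hf σ J x (u m) * ε := by
    simp only [h.wu_fm hF, mul_ite, mul_zero]
    rw [Finset.sum_ite_eq' Finset.univ m, if_pos (Finset.mem_univ _)]
  rw [e1, e2]
  linear_combination (((c m)⁻¹ - 1) * hf σ J x (u m)) * hF.eps

theorem dil_dil (c d : Fin j → k) (x : n → k) :
    dil σ ε J u w d (dil σ ε J u w c x) = dil σ ε J u w (fun l => c l * d l) x := by
  have e : dil σ ε J u w d (dil σ ε J u w c x) = dil σ ε J u w c x +
      ∑ l, (((d l - 1) * (c l * hf σ J x (w l))) • u l +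
        (((d l)⁻¹ - 1) * ε * ((c l)⁻¹ * hf σ J x (u l))) • w l) := by
    conv_lhs => unfold dil
    change dil σ ε J u w c x + _ = _
    congr 1
    refine Finset.sum_congr rfl fun l _ => ?_
    change ((d l - 1) * hf σ J (dil σ ε J u w c x) (w l)) • u l +
      (((d l)⁻¹ - 1) * ε * hf σ J (dil σ ε J u w c x) (u l)) • w l = _
    rw [hf_dil_w hF h, hf_dil_u hF h]
  rw [e]
  unfold dil
  rw [add_assoc, ← Finset.sum_add_distrib]
  congr 1
  refine Finset.sum_congr rfl fun l _ => ?_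
  rw [mul_inv]
  module

omit hF in
theorem dil_u (c : Fin j → k) (i : Fin j) : dil σ ε J u w c (u i) = c i • u i := by
  unfold dil
  have e : ∑ l, (((c l - 1) * hf σ J (u i) (w l)) • u l +
      (((c l)⁻¹ - 1) * ε * hf σ J (u i) (u l)) • w l) = (c i - 1) • u i := by
    rw [Finset.sum_eq_single i]
    · rw [h.uw, if_pos rfl, h.uu, mul_one, mul_zero, zero_smul, add_zero]
    · intro l _ hl
      rw [h.uw, if_neg (Ne.symm hl), h.uu, mul_zero, mul_zero, zero_smul, zero_smul, add_zero]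
    · intro hi
      exact absurd (Finset.mem_univ i) hi
  rw [e]
  module

omit hF in
/-- the product of dilations of the pairs of a hyperbolic system -/
theorem prod_dil (hwu : ∀ i l, i ≠ l → hf σ J (w i) (u l) = 0)
    (T : Fin j → SpecialLinearGroup n k) (a b : Fin j → k)
    (hT : ∀ l x, x ᵥ* (T l).1 =
      x + (a l * hf σ J x (w l)) • u l + (b l * hf σ J x (u l)) • w l)
    (L : List (Fin j)) (hL : L.Nodup) (x : n → k) :
    x ᵥ* ((L.map T).prod).1 =
      x + (L.map fun l => (a l * hf σ J x (w l)) • u l + (b l * hf σ J x (u l)) • w l).sum := by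
  induction L generalizing x with
  | nil =>
    rw [List.map_nil, List.prod_nil, List.map_nil, List.sum_nil, add_zero]
    exact vecMul_one' x
  | cons i L ih =>
    rw [List.nodup_cons] at hL
    rw [List.map_cons, List.prod_cons, vecMul_mul', ih hL.2, hT, List.map_cons, List.sum_cons]
    have e : (L.map fun l => (a l * hf σ J (x + (a i * hf σ J x (w i)) • u i +
          (b i * hf σ J x (u i)) • w i) (w l)) • u l +
        (b l * hf σ J (x + (a i * hf σ J x (w i)) • u i +
          (b i * hf σ J x (u i)) • w i) (u l)) • w l) =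
        L.map fun l => (a l * hf σ J x (w l)) • u l + (b l * hf σ J x (u l)) • w l := by
      refine List.map_congr_left fun l hl => ?_
      have hil : i ≠ l := by
        rintro rfl
        exact hL.1 hl
      rw [hf_add_left, hf_add_left, hf_smul_left, hf_smul_left, h.uw, if_neg hil, h.ww, mul_zero,
        mul_zero, add_zero, add_zero, hf_add_left, hf_add_left, hf_smul_left, hf_smul_left, h.uu,
        hwu i l hil, mul_zero, mul_zero, add_zero, add_zero]
    rw [e]
    abel

end dil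

end alg

section top

variable {n : Type} [Fintype n] [DecidableEq n] {k : Type} [NontriviallyNormedField k]
  {σ : k →+* k} {ε : k} {J : Matrix n n k} {j : ℕ}

/-- the group `D` contains an unbounded dilation of every hyperbolic pair -/
def TorD (σ : k →+* k) (ε : k) (J : Matrix n n k) {D : Type} [Group D]
    (θ : D →* FormGroup σ J) : Prop :=
  ∀ e f, hf σ J e e = 0 → hf σ J f f = 0 → hf σ J e f = 1 → ∃ g : D, ∃ t : k, 1 < ‖t‖ ∧
    ∀ x, x ᵥ* (θ g).1.1 = x + ((t - 1) * hf σ J x f) • e + ((t⁻¹ - 1) * ε * hf σ J x e) • f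

variable {D : Type} [Group D] {θ : D →* FormGroup σ J}

/-- the element which dilates a whole singular space -/
theorem exists_dil (hF : Fm σ ε J) (hT : TorD σ ε J θ) {u w : Fin j → n → k}
    (h : Hyp σ J u w) : ∃ (g : D) (t : Fin j → k), (∀ i, 1 < ‖t i‖) ∧
      ∀ (N : ℕ) (x : n → k), x ᵥ* ((θ g).1 ^ N).1 = dil σ ε J u w (fun i => t i ^ N) x := by
  have h1 : ∀ i, ∃ g : D, ∃ t : k, 1 < ‖t‖ ∧ ∀ x, x ᵥ* (θ g).1.1 =
      x + ((t - 1) * hf σ J x (w i)) • u i + ((t⁻¹ - 1) * ε * hf σ J x (u i)) • w i := fun i =>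
    hT (u i) (w i) (h.uu i i) (h.ww i i) (by rw [h.uw, if_pos rfl])
  choose g t ht hg using h1
  set G : D := ((List.finRange j).map g).prod with hG
  have e1 : (θ G).1 = ((List.finRange j).map fun l => (θ (g l)).1).prod := by
    rw [hG, map_list_prod, List.map_map]
    change (FormGroup σ J).subtype _ = _
    rw [map_list_prod, List.map_map]
    rfl
  have hwu : ∀ i l, i ≠ l → hf σ J (w i) (u l) = 0 := fun i l hil => by
    rw [h.wu_fm hF, if_neg hil]
  have e2 : ∀ x, x ᵥ* (θ G).1.1 = dil σ ε J u w t x := by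
    intro x
    rw [e1, prod_dil h hwu (fun l => (θ (g l)).1) (fun l => t l - 1) (fun l => ((t l)⁻¹ - 1) * ε)
      (fun l x => hg l x) _ (List.nodup_finRange j), ← Fin.sum_univ_def]
    rfl
  refine ⟨G, t, ht, fun N => ?_⟩
  induction N with
  | zero =>
    intro x
    rw [pow_zero]
    have e3 : dil σ ε J u w (fun i => t i ^ 0) x = x := by
      unfold dil
      rw [Finset.sum_eq_zero, add_zero]
      intro l _
      simp only [pow_zero, inv_one, sub_self, zero_mul, zero_smul, add_zero]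
    rw [e3]
    exact vecMul_one' x
  | succ N ih =>
    intro x
    rw [pow_succ, vecMul_mul', ih, e2, dil_dil hF h]
    simp only [pow_succ]

theorem span_smul_range' {c : Fin j → k} (hc : ∀ i, c i ≠ 0) (v : Fin j → n → k) :
    Submodule.span k (range fun i => c i • v i) = Submodule.span k (range v) := by
  refine le_antisymm ?_ ?_
  · rw [Submodule.span_le]
    rintro _ ⟨i, rfl⟩
    exact Submodule.smul_mem _ _ (Submodule.subset_span ⟨i, rfl⟩)
  · rw [Submodule.span_le]
    rintro _ ⟨i, rfl⟩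
    have h1 : v i = (c i)⁻¹ • (c i • v i) := by rw [smul_smul, inv_mul_cancel₀ (hc i), one_smul]
    rw [h1]
    exact Submodule.smul_mem _ _ (Submodule.subset_span ⟨i, rfl⟩)

theorem act_span_range' (g : SpecialLinearGroup n k) (v : Fin j → n → k) :
    act g (Submodule.span k (range v)) = Submodule.span k (range fun i => v i ᵥ* g.1) := by
  change (Submodule.span k (range v)).map g.1.vecMulLinear = _
  rw [Submodule.map_span, ← range_comp]
  rfl

theorem norm_hf_le' (x y : n → k) :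
    ‖hf σ J x y‖ ≤ ‖x‖ * ∑ i, ‖(J *ᵥ fun i => σ (y i)) i‖ := by
  unfold hf dotProduct
  refine (norm_sum_le _ _).trans ?_
  rw [Finset.mul_sum]
  refine Finset.sum_le_sum fun i _ => ?_
  rw [norm_mul]
  exact mul_le_mul_of_nonneg_right (norm_le_pi_norm x i) (norm_nonneg _)

theorem smul_pow_S (g : D) (N : ℕ) (X : SGr σ J j) :
    (θ ((g⁻¹) ^ N) • X).S = act ((θ g).1 ^ N) X.S := by
  rw [smul_S]
  have e : (θ ((g⁻¹) ^ N)).1⁻¹ = (θ g).1 ^ N := by
    rw [map_pow, map_inv]
    change (((θ g).1⁻¹) ^ N)⁻¹ = _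
    rw [inv_pow, inv_inv]
  rw [e]

/-- **contraction**, forms of any kind: one element `b` of `D` fixes `X₀` and its powers throw
every bounded set of spaces of the chart into every neighbourhood of `X₀` -/
theorem contr_fm (hF : Fm σ ε J) (hT : TorD σ ε J θ) {u w : Fin j → n → k} (h : Hyp σ J u w)
    (X₀ : SGr σ J j) (hu : LinearIndependent k u) (hX : X₀.S = Submodule.span k (range u)) :
    ∃ b : D, (∀ N : ℕ, θ (b ^ N) • X₀ = X₀) ∧ ∀ R : ℝ, ∀ W ∈ 𝓝 X₀, ∀ᶠ N : ℕ in atTop,
      ∀ (ρ : Fin j → n → k) (X : SGr σ J j), (∀ i l, hf σ J (ρ i) (w l) = 0) → ‖ρ‖ ≤ R →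
        X.S = Submodule.span k (range (u + ρ)) → θ (b ^ N) • X ∈ W := by
  obtain ⟨g, t, ht, hg⟩ := exists_dil hF hT h
  have ht0 : ∀ i, t i ≠ 0 := fun i => norm_pos_iff.1 (one_pos.trans (ht i))
  have htN : ∀ (N : ℕ) i, t i ^ N ≠ 0 := fun N i => pow_ne_zero _ (ht0 i)
  refine ⟨g⁻¹, fun N => SGr.ext ?_, fun R W hW => ?_⟩
  · rw [smul_pow_S, hX, act_span_range']
    have e : (fun i => u i ᵥ* ((θ g).1 ^ N).1) = fun i => t i ^ N • u i := by
      funext i
      rw [hg, dil_u h]
    rw [e, span_smul_range' (htN N)]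
  obtain ⟨δ, hδ, hnear⟩ := near_u h X₀ hu hX hW
  set M : ℝ := 1 + ∑ l, 2 * (‖ε‖ * ∑ i, ‖(J *ᵥ fun i => σ (u l i)) i‖) * ‖w l‖ with hM
  have hM0 : 0 ≤ M := by
    have : 0 ≤ ∑ l, 2 * (‖ε‖ * ∑ i, ‖(J *ᵥ fun i => σ (u l i)) i‖) * ‖w l‖ :=
      Finset.sum_nonneg fun l _ => by positivity
    linarith
  have hev : ∀ᶠ N : ℕ in atTop, ∀ i, ‖(t i ^ N)⁻¹‖ * (R * M) < δ := by
    rw [eventually_all]
    intro i
    have h1 : Tendsto (fun N : ℕ => ‖(t i ^ N)⁻¹‖) atTop (𝓝 0) := by
      have h2 : Tendsto (fun N : ℕ => (‖t i‖⁻¹) ^ N) atTop (𝓝 0) :=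
        tendsto_pow_atTop_nhds_zero_of_lt_one (by positivity) (inv_lt_one_of_one_lt₀ (ht i))
      refine h2.congr fun N => ?_
      rw [norm_inv, norm_pow, inv_pow]
    have h3 := h1.mul_const (R * M)
    rw [zero_mul] at h3
    exact h3.eventually (gt_mem_nhds hδ)
  filter_upwards [hev] with N hN ρ X hρw hρR hXρ
  have hR0 : 0 ≤ R := (norm_nonneg ρ).trans hρR
  set z : Fin j → n → k := fun i => dil σ ε J u w (fun i => t i ^ N) (ρ i) with hz
  have hzn : ∀ i, ‖z i‖ ≤ R * M := by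
    intro i
    have h2 : ‖ρ i‖ ≤ R := (norm_le_pi_norm ρ i).trans hρR
    rw [hz]
    change ‖ρ i + ∑ l, (((t l ^ N - 1) * hf σ J (ρ i) (w l)) • u l +
      (((t l ^ N)⁻¹ - 1) * ε * hf σ J (ρ i) (u l)) • w l)‖ ≤ _
    have e1 : R * M = R + ∑ l, R * (2 * (‖ε‖ * ∑ i, ‖(J *ᵥ fun i => σ (u l i)) i‖) * ‖w l‖) := by
      rw [hM, mul_add, mul_one, Finset.mul_sum]
    rw [e1]
    refine (norm_add_le _ _).trans (add_le_add h2 ?_)
    refine (norm_sum_le _ _).trans (Finset.sum_le_sum fun l _ => ?_)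
    rw [hρw, mul_zero, zero_smul, zero_add, norm_smul, norm_mul, norm_mul]
    have h3 : ‖(t l ^ N)⁻¹ - 1‖ ≤ 2 := by
      refine (norm_sub_le _ _).trans ?_
      rw [norm_one, norm_inv, norm_pow]
      have h4 : (‖t l‖ ^ N)⁻¹ ≤ 1 := inv_le_one_of_one_le₀ (one_le_pow₀ (ht l).le)
      linarith
    have h4 : ‖hf σ J (ρ i) (u l)‖ ≤ R * ∑ i, ‖(J *ᵥ fun i => σ (u l i)) i‖ :=
      (norm_hf_le' _ _).trans
        (mul_le_mul_of_nonneg_right h2 (Finset.sum_nonneg fun _ _ => norm_nonneg _))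
    have h5 : ‖(t l ^ N)⁻¹ - 1‖ * ‖ε‖ * ‖hf σ J (ρ i) (u l)‖ ≤
        2 * ‖ε‖ * (R * ∑ i, ‖(J *ᵥ fun i => σ (u l i)) i‖) :=
      mul_le_mul (mul_le_mul_of_nonneg_right h3 (norm_nonneg _)) h4 (norm_nonneg _)
        (by positivity)
    calc ‖(t l ^ N)⁻¹ - 1‖ * ‖ε‖ * ‖hf σ J (ρ i) (u l)‖ * ‖w l‖ ≤
        2 * ‖ε‖ * (R * ∑ i, ‖(J *ᵥ fun i => σ (u l i)) i‖) * ‖w l‖ :=
          mul_le_mul_of_nonneg_right h5 (norm_nonneg _)
      _ = R * (2 * (‖ε‖ * ∑ i, ‖(J *ᵥ fun i => σ (u l i)) i‖) * ‖w l‖) := by ring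
  refine hnear (fun i => (t i ^ N)⁻¹ • z i) _ ?_ ?_
  · rw [pi_norm_lt_iff hδ]
    intro i
    rw [norm_smul]
    exact (mul_le_mul_of_nonneg_left (hzn i) (norm_nonneg _)).trans_lt (hN i)
  · rw [smul_pow_S, hXρ, act_span_range',
      ← span_smul_range' (htN N) (u + fun i => (t i ^ N)⁻¹ • z i)]
    congr 2
    funext i
    change (u i + ρ i) ᵥ* ((θ g).1 ^ N).1 = t i ^ N • (u i + (t i ^ N)⁻¹ • z i)
    rw [add_vecMul, hg, hg, dil_u h, smul_add, smul_smul, mul_inv_cancel₀ (htN N i), one_smul]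

end top

end Vale.Agent.P092.H44.HM
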