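import Vale.Agent.P092.H44.HMpG
import Vale.Agent.P092.H631.P2Dense
import Vale.Agent.P092.H673.P.Rec

/-!
P092, stage CL-O (forms of any kind), rows NIS and PROX (helper44), part H: normal forms of the
spaces opposite to `⟨w⟩`, density of opposition, no invariant states, proximality.
-/

set_option linter.all false

open Matrix Set Filter Topology Module

namespace Vale.Agent.P092.H44.HM

open Vale.Agent.P092.H303 (FormGroup)
open Vale.Agent.P092.H714.Cl
open Vale.Agent.P092.H714.Sg (Fm)
open Vale.Agent.P092.H370.Po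
open Vale.Agent.P092.H370.Fo (Fo EU EU_le)
open Vale.Agent.P092.H100.Gr (cb cb_span cb_cb cb_one)
open Vale.Agent.P092.H514.NI (Covol)
open Vale.Agent.P092.H76.Pur (NIS)
open Vale.Agent.P092.H631.P2 (OppS Op₁ opp_open not_opp_iff)

section alg

variable {n : Type} [Fintype n] [DecidableEq n] {k : Type} [Field k]
  {σ : k →+* k} {ε : k} {J : Matrix n n k} {j : ℕ}

/-- frames dual to `w` are independent -/
theorem li_of_dual {v w : Fin j → n → k} (h : ∀ i l, hf σ J (v i) (w l) = if i = l then 1 else 0) :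
    LinearIndependent k v := by
  rw [Fintype.linearIndependent_iff]
  intro c hc i
  have h1 : hf σ J (∑ i, c i • v i) (w i) = 0 := by rw [hc, hf_zero_left]
  rw [hf_sum_left] at h1
  simp only [h, mul_ite, mul_one, mul_zero] at h1
  rwa [Finset.sum_ite_eq' Finset.univ i, if_pos (Finset.mem_univ _)] at h1

/-- the orthogonal of a span -/
theorem hf_span_zero {w : Fin j → n → k} {x : n → k} (h : ∀ a, hf σ J x (w a) = 0) :
    ∀ y ∈ Submodule.span k (range w), hf σ J x y = 0 := by
  intro y hy
  induction hy using Submodule.span_induction with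
  | mem y hy => obtain ⟨a, rfl⟩ := hy; exact h a
  | zero => exact hf_zero_right σ J _
  | add y y' _ _ h1 h2 => rw [hf_add_right, h1, h2, add_zero]
  | smul c y _ h1 => rw [hf_smul_right, h1, mul_zero]

end alg

section top

variable {n : Type} [Fintype n] [DecidableEq n] {k : Type} [NontriviallyNormedField k]
  {σ : k →+* k} {ε : k} {J : Matrix n n k} {j : ℕ}

/-- **normal form** of a space opposite to the span of `w` -/
theorem exists_nf {w : Fin j → n → k} {X Y : SGr σ J j}
    (hY : Y.S = Submodule.span k (range w)) (h : OppS X Y) :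
    ∃ v : Fin j → n → k, (∀ i l, hf σ J (v i) (w l) = if i = l then 1 else 0) ∧
      X.S = Submodule.span k (range v) := by
  classical
  obtain ⟨v, hv⟩ := H100.Gr.sp_surj (k := k) (ι := n) (j := j) X.1
  have hX : X.S = Submodule.span k (range v.1) := congrArg Subtype.val hv.symm
  have hdet : (pm σ J w v.1).det ≠ 0 := by
    intro h0
    obtain ⟨c, hc0, hc⟩ := Matrix.exists_vecMul_eq_zero_iff.2 h0
    have h1 : (∑ i, c i • v.1 i) = 0 := by
      refine h _ ?_ ?_
      · rw [hX]
        exact Submodule.sum_mem _ fun i _ => Submodule.smul_mem _ _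
          (Submodule.subset_span ⟨i, rfl⟩)
      · rw [hY]
        refine hf_span_zero fun a => ?_
        rw [hf_sum_left]
        exact congrFun hc a
    exact hc0 (funext fun i => (Fintype.linearIndependent_iff.1 v.2) c h1 i)
  refine ⟨cb (pm σ J w v.1)⁻¹ v.1, fun i l => ?_, ?_⟩
  · have h1 : pm σ J w (cb (pm σ J w v.1)⁻¹ v.1) = 1 := by
      rw [pm_cb, Matrix.nonsing_inv_mul _ (isUnit_iff_ne_zero.2 hdet)]
    have h2 := congrFun (congrFun h1 i) l
    rw [Matrix.one_apply] at h2
    exact h2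
  · rw [cb_span]
    · exact hX
    · rw [Matrix.det_nonsing_inv, Ring.inverse_eq_inv']
      exact isUnit_iff_ne_zero.2 (inv_ne_zero hdet)


theorem opp_of_hyp {u w : Fin j → n → k} (h : Hyp σ J u w) {X Y : SGr σ J j}
    (hX : X.S = Submodule.span k (range u)) (hY : Y.S = Submodule.span k (range w)) :
    OppS X Y := by
  intro x hx hxy
  rw [hX, Submodule.mem_span_range_iff_exists_fun] at hx
  obtain ⟨c, rfl⟩ := hx
  refine Finset.sum_eq_zero fun i _ => ?_
  have h1 := hxy (w i) (by rw [hY]; exact Submodule.subset_span ⟨i, rfl⟩)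
  rw [hf_sum_left] at h1
  simp only [h.uw, mul_ite, mul_one, mul_zero] at h1
  rw [Finset.sum_ite_eq' Finset.univ i, if_pos (Finset.mem_univ _)] at h1
  rw [h1, zero_smul]

/-- the base data of a singular space -/
theorem exists_base (hF : Fm σ ε J) (X : SGr σ J j) : ∃ (u w : Fin j → n → k) (Y : SGr σ J j),
    LinearIndependent k u ∧ Hyp σ J u w ∧ X.S = Submodule.span k (range u) ∧
      Y.S = Submodule.span k (range w) := by
  obtain ⟨v, hv⟩ := H100.Gr.sp_surj (k := k) (ι := n) (j := j) X.1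
  have hX : X.S = Submodule.span k (range v.1) := congrArg Subtype.val hv.symm
  have hS : Sing σ J (Submodule.span k (range v.1)) := by
    rw [← hX]
    exact X.sing
  obtain ⟨w, hw⟩ := exists_dual_fm hF v.2 hS
  have hli : LinearIndependent k w := by
    have h1 : ∀ i l, hf σ J ((ε • w i : n → k)) (v.1 l) = if i = l then 1 else 0 := by
      intro i l
      rw [hf_smul_left, hw.wu_fm hF]
      split_ifs
      · exact hF.eps
      · exact mul_zero _
    have h2 : LinearIndependent k fun i => ε • w i := li_of_dual h1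
    rw [Fintype.linearIndependent_iff] at h2 ⊢
    intro c hc i
    have h3 := h2 c (by
      have e : ∑ i, c i • ε • w i = ε • ∑ i, c i • w i := by
        rw [Finset.smul_sum]
        exact Finset.sum_congr rfl fun l _ => smul_comm _ _ _
      rw [e, hc, smul_zero]) i
    exact h3
  refine ⟨v.1, w, SGr.mk' (Submodule.span k (range w)) ?_ ?_, v.2, hw, hX, rfl⟩
  · intro x hx y hy
    have h1 : ∀ a, hf σ J x (w a) = 0 := by
      intro a
      refine hF.symm0 (hf_span_zero (fun b => ?_) x hx)
      exact hw.ww a b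
    exact hf_span_zero h1 y hy
  · rw [finrank_span_eq_card hli, Fintype.card_fin]

/-- a space which is not opposite: orthogonal vectors on both sides -/
theorem exists_xy (hF : Fm σ ε J) {X Y : SGr σ J j} (h : ¬ OppS X Y) :
    ∃ x ∈ X.S, ∃ y ∈ Y.S, x ≠ 0 ∧ y ≠ 0 ∧ (∀ b ∈ Y.S, hf σ J x b = 0) ∧
      (∀ a ∈ X.S, hf σ J a y = 0) ∧ (y ∈ X.S → x = y) := by
  classical
  obtain ⟨v, hv⟩ := H100.Gr.sp_surj (k := k) (ι := n) (j := j) X.1
  have hX : X.S = Submodule.span k (range v.1) := congrArg Subtype.val hv.symm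
  obtain ⟨w, hw⟩ := H100.Gr.sp_surj (k := k) (ι := n) (j := j) Y.1
  have hY : Y.S = Submodule.span k (range w.1) := congrArg Subtype.val hw.symm
  have hdet : (pm σ J w.1 v.1).det = 0 := by
    by_contra hdet
    refine h fun x hx hxy => ?_
    rw [hX, Submodule.mem_span_range_iff_exists_fun] at hx
    obtain ⟨c, rfl⟩ := hx
    have h1 : c ᵥ* pm σ J w.1 v.1 = 0 := by
      funext l
      have h2 := hxy (w.1 l) (by rw [hY]; exact Submodule.subset_span ⟨l, rfl⟩)
      rw [hf_sum_left] at h2
      exact h2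
    have h3 : c = 0 := by
      by_contra hc0
      exact hdet (Matrix.exists_vecMul_eq_zero_iff.1 ⟨c, hc0, h1⟩)
    rw [h3]
    simp
  obtain ⟨c, hc0, hc⟩ := Matrix.exists_vecMul_eq_zero_iff.2 hdet
  obtain ⟨d, hd0, hd⟩ := Matrix.exists_mulVec_eq_zero_iff.2 hdet
  set x : n → k := ∑ i, c i • v.1 i with hx
  set y : n → k := ∑ l, σ (d l) • w.1 l with hy
  have hxX : x ∈ X.S := by
    rw [hX]
    exact Submodule.sum_mem _ fun i _ => Submodule.smul_mem _ _ (Submodule.subset_span ⟨i, rfl⟩)
  have hyY : y ∈ Y.S := by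
    rw [hY]
    exact Submodule.sum_mem _ fun i _ => Submodule.smul_mem _ _ (Submodule.subset_span ⟨i, rfl⟩)
  have hx0 : x ≠ 0 := fun h0 => hc0 (funext fun i => (Fintype.linearIndependent_iff.1 v.2) c h0 i)
  have hy0 : y ≠ 0 := fun h0 => hd0 (funext fun i => by
    have := (Fintype.linearIndependent_iff.1 w.2) (fun l => σ (d l)) h0 i
    rwa [map_eq_zero] at this)
  have hxY : ∀ b ∈ Y.S, hf σ J x b = 0 := by
    rw [hY]
    refine hf_span_zero fun a => ?_
    rw [hx, hf_sum_left]
    exact congrFun hc a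
  have hyX : ∀ a ∈ X.S, hf σ J a y = 0 := by
    intro a ha
    have h1 : ∀ i, hf σ J y (v.1 i) = 0 := by
      intro i
      refine hF.symm0 ?_
      rw [hy, hf_sum_right]
      have h2 := congrFun hd i
      rw [Matrix.mulVec, dotProduct] at h2
      refine Eq.trans (Finset.sum_congr rfl fun l _ => ?_) h2
      rw [hF.inv, mul_comm]
      rfl
    refine hF.symm0 ?_
    rw [hX] at ha
    exact hf_span_zero h1 a ha
  by_cases hyx : y ∈ X.S
  · exact ⟨y, hyx, y, hyY, hy0, hy0, fun b hb => Y.sing y hyY b hb, hyX, fun _ => rfl⟩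
  · exact ⟨x, hxX, y, hyY, hx0, hy0, hxY, hyX, fun h => absurd h hyx⟩

/-- the data of one step of the density argument -/
theorem exists_curve (hF : Fo σ ε J) {X Y : SGr σ J j} (h : ¬ OppS X Y) :
    ∃ (m : ℕ) (hm : m + 1 = j) (x y f q : n → k) (β : k) (b : Fin m → n → k), x ∈ X.S ∧
      y ∈ Y.S ∧ (∀ a ∈ Y.S, hf σ J x a = 0) ∧ (∀ a ∈ X.S, hf σ J a y = 0) ∧
      LinearIndependent k b ∧ (∀ i, b i ∈ X.S) ∧ x ∉ Submodule.span k (range b) ∧
      hf σ J x f = 1 ∧ hf σ J f y = ε ∧ hf σ J f f = 0 ∧ (∀ i, hf σ J (b i) f = 0) ∧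
      (∀ i, hf σ J (b i) q = 0) ∧ hf σ J x q = 0 ∧ hf σ J f q = 0 ∧ β ≠ 0 ∧
      σ β + ε * β + hf σ J q q = 0 := by
  obtain ⟨x, hxX, y, hyY, hx0, hy0, hxY, hyX, hxy⟩ := exists_xy hF.fm h
  have hsym := fun {a b : n → k} (h : hf σ J a b = 0) => hF.fm.symm0 h
  -- the hyperplane
  obtain ⟨φ, hφx, -⟩ := Submodule.exists_le_ker_of_notMem (p := (⊥ : Submodule k (n → k)))
    (v := x) (by rwa [Submodule.mem_bot])
  set Z : Submodule k (n → k) := X.S ⊓ LinearMap.ker φ with hZ
  have hxZ : x ∉ Z := fun h => hφx (LinearMap.mem_ker.1 h.2)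
  have hsup : Z ⊔ Submodule.span k {x} = X.S := by
    refine le_antisymm (sup_le inf_le_left ((Submodule.span_singleton_le_iff_mem _ _).2 hxX)) ?_
    intro v hv
    have e : v = (v - (φ v / φ x) • x) + (φ v / φ x) • x := by abel
    rw [e]
    refine Submodule.add_mem_sup ⟨X.S.sub_mem hv (X.S.smul_mem _ hxX), ?_⟩
      (Submodule.smul_mem _ _ (Submodule.mem_span_singleton_self x))
    have h2 : φ (v - (φ v / φ x) • x) = 0 := by
      rw [map_sub, map_smul, smul_eq_mul, div_mul_cancel₀ _ hφx, sub_self]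
    exact h2
  have hdim : finrank k Z + 1 = j := by
    rw [← finrank_sup_span hxZ, hsup, X.dim]
  have hZs : Sing σ J Z := X.sing.mono inf_le_left
  -- the vector `f`
  have hxY' : x ∉ Z ⊔ Submodule.span k {x - y} := by
    intro hmem
    obtain ⟨z, hz, a, ha, hza⟩ := Submodule.mem_sup.1 hmem
    obtain ⟨c, rfl⟩ := Submodule.mem_span_singleton.1 ha
    have hyin : y ∈ X.S := by
      by_cases hc : c = 0
      · exfalso
        rw [hc, zero_smul, add_zero] at hza
        exact hxZ (hza ▸ hz)
      · have e : y = c⁻¹ • (z + c • x - x) := by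
          have e1 : z + c • x - x = c • y := by
            have : x = z + c • (x - y) := hza.symm
            have e2 : z + c • x - x = z + c • x - (z + c • (x - y)) := by rw [← this]
            rw [e2]
            module
          rw [e1, smul_smul, inv_mul_cancel₀ hc, one_smul]
        rw [e]
        exact X.S.smul_mem _ (X.S.sub_mem (X.S.add_mem hz.1 (X.S.smul_mem _ hxX)) hxX)
    have hxe := hxy hyin
    rw [hxe, sub_self, smul_zero, add_zero, ← hxe] at hza
    exact hxZ (hza ▸ hz)
  have hort : ∀ a ∈ Z ⊔ Submodule.span k {x - y}, hf σ J a x = 0 := by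
    intro a ha
    obtain ⟨z, hz, a', ha', rfl⟩ := Submodule.mem_sup.1 ha
    obtain ⟨c, rfl⟩ := Submodule.mem_span_singleton.1 ha'
    rw [hf_add_left, hf_smul_left, hf_sub_left, X.sing z hz.1 x hxX, X.sing x hxX x hxX,
      hsym (hyX x hxX), sub_zero, mul_zero, add_zero]
  obtain ⟨f, hff, hxf, hYf⟩ := hF.fm.partner (X.sing x hxX x hxX) hxY' hort
  have hyf : hf σ J y f = 1 := by
    have h1 := hYf (x - y) (Submodule.mem_sup_right (Submodule.mem_span_singleton_self _))
    rw [hf_sub_left, hxf] at h1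
    linear_combination -h1
  have hZf : ∀ z ∈ Z, hf σ J z f = 0 := fun z hz => hYf z (Submodule.mem_sup_left hz)
  -- the third point
  obtain ⟨p, hpp, hZp, hxp, hpf⟩ := hF.thd Z x f hZs (X.sing x hxX x hxX) hff
    (fun z hz => X.sing z hz.1 x hxX) hZf (by rw [hxf]; exact one_ne_zero)
  have hfx : hf σ J f x = ε := by rw [hF.fm.herm, hxf, map_one, mul_one]
  have hxx : hf σ J x x = 0 := X.sing x hxX x hxX
  set α := hf σ J p f with hα
  set γ := hf σ J p x with hγ
  have hγ0 : γ ≠ 0 := fun h0 => hxp (hsym h0)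
  have hε0 : ε ≠ 0 := fun h0 => by
    have := hF.fm.eps
    rw [h0, mul_zero] at this
    exact zero_ne_one this
  have hσα : σ α ≠ 0 := by rwa [Ne, map_eq_zero]
  set q : n → k := α⁻¹ • (p - α • x - (ε * γ) • f) with hq
  have hZx : ∀ z ∈ Z, hf σ J z x = 0 := fun z hz => X.sing z hz.1 x hxX
  have e1 : ∀ z ∈ Z, hf σ J z q = 0 := by
    intro z hz
    rw [hq, hf_smul_right, hf_sub_right, hf_sub_right, hf_smul_right, hf_smul_right, hZp z hz,
      hZx z hz, hZf z hz, mul_zero, mul_zero, sub_zero, sub_zero, mul_zero]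
  have hxp' : hf σ J x p = ε * σ γ := hF.fm.herm p x
  have hfp' : hf σ J f p = ε * σ α := hF.fm.herm p f
  have he := hF.fm.eps
  have hse := hF.fm.seps
  have e2 : hf σ J x q = 0 := by
    rw [hq, hf_smul_right, hf_sub_right, hf_sub_right, hf_smul_right, hf_smul_right, hxx, hxf,
      hxp', mul_zero, mul_one, map_mul, hse]
    ring
  have e3 : hf σ J f q = 0 := by
    rw [hq, hf_smul_right, hf_sub_right, hf_sub_right, hf_smul_right, hf_smul_right, hfx, hff,
      hfp', mul_zero]
    ring
  have e2' := hsym e2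
  have e3' := hsym e3
  refine ⟨finrank k Z, hdim, x, y, f, q, ε * γ / α, fun i => (finBasis k Z i).1, hxX, hyY, hxY,
    hyX, ?_, fun i => (finBasis k Z i).2.1, ?_, hxf, ?_, hff, fun i => hZf _ (finBasis k Z i).2,
    fun i => e1 _ (finBasis k Z i).2, e2, e3, div_ne_zero (mul_ne_zero hε0 hγ0) hpf, ?_⟩
  · exact (finBasis k Z).linearIndependent.map' Z.subtype (Submodule.ker_subtype Z)
  · rw [H370.Fo.span_basis]
    exact hxZ
  · rw [hF.fm.herm, hyf, map_one, mul_one]
  · -- isotropy
    have hp : p = α • x + (ε * γ) • f + α • q := by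
      rw [hq, smul_smul, mul_inv_cancel₀ hpf, one_smul]
      abel
    have h1 := hpp
    rw [hp] at h1
    simp only [hf_add_left, hf_add_right, hf_smul_left, hf_smul_right, hxx, hff, hxf, hfx, e2, e3,
      e2', e3', mul_zero, add_zero, zero_add, mul_one] at h1
    rw [map_div₀]
    field_simp
    rw [map_mul, hse]
    have h2 := h1
    rw [map_mul, hse] at h2
    linear_combination h2

end top

end Vale.Agent.P092.H44.HM
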