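import Vale.Agent.P092.H44.HMpI
import Vale.Agent.P092.H370.Fo5

/-!
P092, stage CL-O (forms of any kind), rows NIS and PROX (helper44), part J: the fields `nis1`,
`nis2`, `prox1`, `prox2` of `CL.Geo` for every group `D` with a continuous homomorphism
`θ : D →* FormGroup σ J` whose image contains the Eichler elements.
-/

set_option linter.all false

open Matrix Set Filter Topology Module

namespace Vale.Agent.P092.H44.HM

open Vale.Agent.P092.H303 (FormGroup)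
open Vale.Agent.P092.H714.Cl
open Vale.Agent.P092.H714.Sg (Fm HasTor)
open Vale.Agent.P092.H370.Po
open Vale.Agent.P092.H370.Fo (Fo Wf EU EU_le)
open Vale.Agent.P092.H514.NI (Covol)
open Vale.Agent.P092.H76.Pur (NIS)
open Vale.Agent.P092.H631.P2 (OppS Op₁ opp_open not_opp_iff)

section alg

variable {n : Type} [Fintype n] [DecidableEq n] {k : Type} [NontriviallyNormedField k]
  {σ : k →+* k} {ε : k} {J : Matrix n n k} {j r : ℕ}

theorem opps_symm (hF : Fm σ ε J) {X Y : SGr σ J j} (h : OppS X Y) : OppS Y X := by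
  by_contra hn
  obtain ⟨x, hx, y, hy, hx0, hy0, hxY, hyX, -⟩ := exists_xy hF hn
  exact hy0 (h y hy fun a ha => hF.symm0 (hyX a ha))

theorem opp_of_opps (hF : Fm σ ε J) {X Y : SGr σ J j} (h : OppS X Y) :
    H370.Fo.Opp σ J X.S Y.S :=
  ⟨fun y hy hyx => opps_symm hF h y hy fun x hx => hF.symm0 (hyx x hx),
    fun x hx hxy => h x hx fun y hy => hF.symm0 (hxy y hy)⟩

variable {D : Type} [Group D] {θ : D →* FormGroup σ J}

/-- transitivity on the opposite pairs -/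
theorem trans_opp_D (hF : Fo σ ε J)
    (hφ : ∀ g : FormGroup σ J, g.1 ∈ EU σ ε J → ∃ s : D, θ s = g) (X Y X' Y' : SGr σ J j)
    (h : OppS X Y) (h' : OppS X' Y') : ∃ g : D, θ g • X = X' ∧ θ g • Y = Y' := by
  obtain ⟨g, hg, h1, h2⟩ := H370.Fo.trans_opp hF X.sing Y.sing X'.sing Y'.sing
    (opp_of_opps hF.fm h) (opp_of_opps hF.fm h') (X.dim.trans X'.dim.symm)
    (X.dim.trans Y.dim.symm) (X'.dim.trans Y'.dim.symm)
  obtain ⟨s, hs⟩ := hφ (⟨g, EU_le hF.fm hg⟩ : FormGroup σ J)⁻¹ (inv_mem hg)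
  refine ⟨s, SGr.ext ?_, SGr.ext ?_⟩
  · rw [hs, smul_S]
    change act (g⁻¹)⁻¹ X.S = X'.S
    rw [inv_inv, h1]
  · rw [hs, smul_S]
    change act (g⁻¹)⁻¹ Y.S = Y'.S
    rw [inv_inv, h2]

theorem torD_of (hF : Fm σ ε J) (hT : HasTor σ ε J (EU σ ε J))
    (hφ : ∀ g : FormGroup σ J, g.1 ∈ EU σ ε J → ∃ s : D, θ s = g) : TorD σ ε J θ := by
  intro e f he hf' hef
  obtain ⟨g, t, ht, hg⟩ := hT e f he hf' hef
  obtain ⟨s, hs⟩ := hφ ⟨g.1, EU_le hF g.2⟩ g.2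
  exact ⟨s, t, ht, fun x => by rw [hs]; exact hg x⟩

/-- opposite points, forms of any kind -/
theorem opps_of_opp1 (hF : Wf σ ε J r) (hr : 2 ≤ r) {x y : SGr σ J 1}
    (h : ∀ l : SGr σ J r, Inc x l → ¬ Inc y l) : OppS x y := by
  by_contra hn
  obtain ⟨P, h1, h2⟩ := not_opp_iff.1 hn
  rw [inc_iff_eq] at h1
  subst h1
  obtain ⟨L, hL, hLd⟩ := hF.wi.1
  have hs : Sing σ J (P.S ⊔ y.S) := by
    unfold Sing
    rw [ort_sup_left, ort_sup_right, ort_sup_right]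
    exact ⟨⟨P.sing, h2⟩, ⟨fun a ha b hb => hF.fm.symm0 (h2 b hb a ha), y.sing⟩⟩
  have hd : finrank k ↥(P.S ⊔ y.S) ≤ r := by
    have h3 := Submodule.finrank_add_le_finrank_add_finrank P.S y.S
    rw [P.dim, y.dim] at h3
    omega
  obtain ⟨Z, hZ1, hZ2, hZ3⟩ := H370.Fo.exists_above hF.fo hs hL hd hLd.ge
  exact h (SGr.mk' Z hZ2 hZ3) (le_sup_left.trans hZ1) (le_sup_right.trans hZ1)

/-- opposite maximal spaces, forms of any kind -/
theorem opps_of_opp2 (hF : Wf σ ε J r) {l l' : SGr σ J r}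
    (h : ∀ x : SGr σ J 1, Inc x l → ¬ Inc x l') : OppS l l' := by
  by_contra hn
  obtain ⟨P, h1, h2⟩ := not_opp_iff.1 hn
  refine h P h1 fun v hv => ?_
  by_contra hvl
  have hvv : hf σ J v v = 0 := P.sing v hv v hv
  have h3 := hF.wi.2 _ (H370.Fo.sing_sup_span hF.fo l'.sing hvv
    fun x hx => hF.fm.symm0 (h2 v hv x hx))
  rw [finrank_sup_span hvl, l'.dim] at h3
  omega

end alg

section main

variable {n : Type} [Fintype n] [DecidableEq n] {k : Type} [NontriviallyNormedField k]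
  [ProperSpace k] {σ : k →+* k} {ε : k} {J : Matrix n n k} {j r : ℕ}
  {D : Type} [Group D] [TopologicalSpace D] [IsTopologicalGroup D] {θ : D →* FormGroup σ J}

/-- a compact set of spaces opposite to `Y` lies in a bounded part of the chart -/
theorem bdd_of_compact (hF : Fm σ ε J) (hσ : Continuous σ) {u w : Fin j → n → k}
    (h : Hyp σ J u w) {Y : SGr σ J j} (hY : Y.S = Submodule.span k (range w))
    {K : Set (SGr σ J j)} (hK : IsCompact K) (hKo : ∀ X ∈ K, OppS X Y) :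
    ∃ R : ℝ, ∀ X ∈ K, ∃ ρ : Fin j → n → k, (∀ i l, hf σ J (ρ i) (w l) = 0) ∧ ‖ρ‖ ≤ R ∧
      X.S = Submodule.span k (range (u + ρ)) := by
  refine hK.induction_on (p := fun s => ∃ R : ℝ, ∀ X ∈ s, ∃ ρ : Fin j → n → k,
    (∀ i l, hf σ J (ρ i) (w l) = 0) ∧ ‖ρ‖ ≤ R ∧ X.S = Submodule.span k (range (u + ρ)))
    ⟨0, fun X hX => absurd hX (by simp)⟩ ?_ ?_ ?_
  · rintro s t hst ⟨R, hR⟩
    exact ⟨R, fun X hX => hR X (hst hX)⟩
  · rintro s t ⟨R, hR⟩ ⟨R', hR'⟩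
    refine ⟨max R R', ?_⟩
    rintro X (hX | hX)
    · obtain ⟨ρ, h1, h2, h3⟩ := hR X hX
      exact ⟨ρ, h1, h2.trans (le_max_left _ _), h3⟩
    · obtain ⟨ρ, h1, h2, h3⟩ := hR' X hX
      exact ⟨ρ, h1, h2.trans (le_max_right _ _), h3⟩
  · intro X₁ hX₁
    obtain ⟨v, hv, hXv⟩ := exists_nf hY (hKo X₁ hX₁)
    have hvh : Hyp σ J v w := by
      refine ⟨fun i l => ?_, h.ww, hv⟩
      have hm : ∀ i, v i ∈ X₁.S := fun i => by
        rw [hXv]
        exact Submodule.subset_span ⟨i, rfl⟩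
      exact X₁.sing _ (hm i) _ (hm l)
    refine ⟨_, mem_nhdsWithin_of_mem_nhds (UU_mem hvh hσ X₁ (li_of_dual hv) hXv),
      ‖v - u‖ + 1, ?_⟩
    rintro X ⟨ρ, h1, h2, h3⟩
    refine ⟨(v - u) + ρ, fun i l => ?_, ?_, ?_⟩
    · change hf σ J ((v i - u i) + ρ i) (w l) = 0
      rw [hf_add_left, h1, add_zero, hf_sub_left, hv, h.uw, sub_self]
    · exact (norm_add_le _ _).trans (add_le_add le_rfl h2)
    · rw [h3]
      congr 2
      abel

/-- **proximality**, forms of any kind -/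
theorem prox_fm [SecondCountableTopology D] [LocallyCompactSpace D]
    [MulAction D (SGr σ J j)] (ha : ∀ (d : D) (X : SGr σ J j), d • X = θ d • X)
    (hF : Fo σ ε J) (hσ : Continuous σ) (hθ : Continuous θ) (hT : TorD σ ε J θ)
    (hO : ∀ X Y X' Y' : SGr σ J j, OppS X Y → OppS X' Y' →
      ∃ g : D, θ g • X = X' ∧ θ g • Y = Y') (Γ : Subgroup D) (hΓ : Covol Γ)
    (z : SGr σ J j) (K : Set (SGr σ J j)) (hK : IsCompact K) (hKo : ∀ y ∈ K, OppS y z)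
    (U : Set (SGr σ J j)) (hU : IsOpen U) (hUn : U.Nonempty) : ∃ γ ∈ Γ, ∀ y ∈ K, γ • y ∈ U := by
  obtain ⟨X₀, hX₀⟩ := hUn
  obtain ⟨u, w, Y, hu, h, hX, hY⟩ := exists_base hF.fm X₀
  obtain ⟨b, hb, hc⟩ := contr_fm hF.fm hT h X₀ hu hX
  have hcont : Continuous fun p : D × SGr σ J j => p.1 • p.2 := by
    have h1 : Continuous fun p : D × SGr σ J j => θ p.1 • p.2 :=
      (hθ.comp continuous_fst).smul continuous_snd
    refine h1.congr fun p => (ha p.1 p.2).symm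
  refine H673.Px.prox_abs (Y := SGr σ J j) hcont Γ hΓ b X₀ Y OppS (opp_open hσ)
    (fun g x y hxy => by rw [ha, ha]; exact hxy.smul (θ g)) ?_ ?_ z hK hKo hU ⟨X₀, hX₀⟩
  · intro K' hK' hK'o W hW
    obtain ⟨R, hR⟩ := bdd_of_compact hF.fm hσ h hY hK' hK'o
    filter_upwards [hc R W hW] with N hN X hX
    obtain ⟨ρ, h1, h2, h3⟩ := hR X hX
    rw [ha]
    exact hN ρ X h1 h2 h3
  · intro y₀ W hW hWn
    obtain ⟨X, hXW, hXy⟩ := opp_dense_fo hF hσ hW hWn y₀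
    obtain ⟨g, h1, h2⟩ := hO X₀ Y X y₀ (opp_of_hyp h hX hY) hXy
    exact ⟨g, by rw [ha, h2], by rw [ha, h1]; exact hXW⟩

/-- the field `nis1` / `nis2` of `CL.Geo` -/
theorem nis_geo [Fact (Continuous σ)] (hF : Fo σ ε J) (hθ : Continuous θ)
    (hT : HasTor σ ε J (EU σ ε J))
    (hφ : ∀ g : FormGroup σ J, g.1 ∈ EU σ ε J → ∃ s : D, θ s = g) (hj : 1 ≤ j)
    [MulAction D (SGr σ J j)] (ha : ∀ (d : D) (X : SGr σ J j), d • X = θ d • X)
    (Γ : Subgroup D) (hΓ : Covol Γ) (φ : C(SGr σ J j, ℂ) →ₗ[ℂ] ℂ)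
    (h0 : ∀ f, 0 ≤ (φ (star f * f)).re) (h1 : φ 1 = 1)
    (hinv : ∀ γ ∈ Γ, ∀ f f' : C(SGr σ J j, ℂ), (∀ x, f' (γ • x) = f x) → φ f' = φ f) : False :=
  nis_fm hF hθ (torD_of hF.fm hT hφ) (trans_opp_D hF hφ) hj Γ.subtype
    (by rwa [Γ.range_subtype]) φ h0 h1 fun γ f f' h =>
      hinv γ.1 γ.2 f f' fun x => by rw [ha]; exact h x

/-- the field `prox1` of `CL.Geo` -/
theorem prox1_fo [SecondCountableTopology D] [LocallyCompactSpace D]
    [MulAction D (SGr σ J 1)] (ha : ∀ (d : D) (X : SGr σ J 1), d • X = θ d • X)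
    (hF : Wf σ ε J r) (hr : 2 ≤ r) (hσ : Continuous σ) (hθ : Continuous θ)
    (hT : HasTor σ ε J (EU σ ε J))
    (hφ : ∀ g : FormGroup σ J, g.1 ∈ EU σ ε J → ∃ s : D, θ s = g) (Γ : Subgroup D)
    (hΓ : Covol Γ) (z : SGr σ J 1) (K : Set (SGr σ J 1)) (hK : IsCompact K)
    (hKo : ∀ y ∈ K, ∀ l : SGr σ J r, Inc y l → ¬ Inc z l)
    (U : Set (SGr σ J 1)) (hU : IsOpen U) (hUn : U.Nonempty) : ∃ γ ∈ Γ, ∀ y ∈ K, γ • y ∈ U :=
  prox_fm ha hF.fo hσ hθ (torD_of hF.fm hT hφ) (trans_opp_D hF.fo hφ) Γ hΓ z K hK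
    (fun y hy => opps_of_opp1 hF hr (hKo y hy)) U hU hUn

/-- the field `prox2` of `CL.Geo` -/
theorem prox2_fo [SecondCountableTopology D] [LocallyCompactSpace D]
    [MulAction D (SGr σ J r)] (ha : ∀ (d : D) (X : SGr σ J r), d • X = θ d • X)
    (hF : Wf σ ε J r) (hσ : Continuous σ) (hθ : Continuous θ)
    (hT : HasTor σ ε J (EU σ ε J))
    (hφ : ∀ g : FormGroup σ J, g.1 ∈ EU σ ε J → ∃ s : D, θ s = g) (Γ : Subgroup D)
    (hΓ : Covol Γ) (z : SGr σ J r) (K : Set (SGr σ J r)) (hK : IsCompact K)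
    (hKo : ∀ y ∈ K, ∀ x : SGr σ J 1, Inc x y → ¬ Inc x z)
    (U : Set (SGr σ J r)) (hU : IsOpen U) (hUn : U.Nonempty) : ∃ γ ∈ Γ, ∀ y ∈ K, γ • y ∈ U :=
  prox_fm ha hF.fo hσ hθ (torD_of hF.fm hT hφ) (trans_opp_D hF.fo hφ) Γ hΓ z K hK
    (fun y hy => opps_of_opp2 hF (hKo y hy)) U hU hUn

end main

end Vale.Agent.P092.H44.HM
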