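import Vale.Agent.P092.H589.K2a

/-!
P092, TEAM N, block [N-K2], file Sec, part 1 (helper44).
Measurable selections over a finite type, and the measurable normalisation of a measurable
family of nonzero vectors.
-/

namespace Vale.Agent.P092.H44

open Vale.Agent.P092.H589.K2

/-- Measurable selection of an index in a finite type. -/
lemma exists_sel {Y Z β : Type*} [MeasurableSpace Y] [MeasurableSpace Z] [Fintype β]
    (F : β → Y → Z) (hF : ∀ i, Measurable (F i)) (P : β → Y → Prop)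
    (hP : ∀ i, MeasurableSet {y | P i y}) (h : ∀ y, ∃ i, P i y) :
    ∃ q : Y → Z, Measurable q ∧ ∀ y, ∃ i, P i y ∧ q y = F i y := by
  classical
  rcases isEmpty_or_nonempty Y with hY | ⟨⟨y₀⟩⟩
  · exact ⟨fun y => hY.elim y, measurable_of_empty _, fun y => hY.elim y⟩
  obtain ⟨i₀, -⟩ := h y₀
  let e := Fintype.equivFin β
  let g : ℕ → β := fun n => if hn : n < Fintype.card β then e.symm ⟨n, hn⟩ else i₀
  have hg : ∀ i, ∃ n, g n = i := fun i => ⟨(e i).1, by
    have h1 : (e i).1 < Fintype.card β := (e i).2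
    show (if hn : (e i).1 < Fintype.card β then e.symm ⟨(e i).1, hn⟩ else i₀) = i
    rw [dif_pos h1]
    exact e.symm_apply_apply i⟩
  have hex : ∀ y, ∃ n, P (g n) y := fun y => by
    obtain ⟨i, hi⟩ := h y
    obtain ⟨n, hn⟩ := hg i
    exact ⟨n, by rw [hn]; exact hi⟩
  refine ⟨fun y => F (g (Nat.find (hex y))) y, ?_, fun y => ⟨_, Nat.find_spec (hex y), rfl⟩⟩
  exact Measurable.find (f := fun n => F (g n)) (p := fun n y => P (g n) y)
    (fun n => hF (g n)) (fun n => hP (g n)) hex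

/-- A measurable family of nonzero vectors has a measurable normalisation. -/
theorem exists_nrm {𝕜 : Type} [NormedField 𝕜] [MeasurableSpace 𝕜] [BorelSpace 𝕜]
    [SecondCountableTopology 𝕜] {β : Type} [Fintype β] {Y : Type*} [MeasurableSpace Y]
    (v : Y → β → 𝕜) (hv : Measurable v) (h0 : ∀ y, v y ≠ 0) :
    ∃ q : Y → β → 𝕜, Measurable q ∧ ∀ y, Nrm (q y) ∧ ∃ c : 𝕜, c ≠ 0 ∧ q y = c • v y := by
  classical
  have hvi : ∀ i, Measurable fun y => v y i := fun i => (measurable_pi_apply i).comp hv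
  obtain ⟨q, hq, hq'⟩ := exists_sel (Y := Y) (fun (i : β) y => (v y i)⁻¹ • v y)
    (fun i => by
      refine measurable_pi_lambda _ fun j => ?_
      exact ((hvi i).inv).mul (hvi j))
    (fun i y => ∀ j, ‖v y j‖ ≤ ‖v y i‖)
    (fun i => by
      have e : {y | ∀ j, ‖v y j‖ ≤ ‖v y i‖} = ⋂ j, {y | ‖v y j‖ ≤ ‖v y i‖} := by
        ext y; simp
      rw [e]
      exact MeasurableSet.iInter fun j => measurableSet_le (hvi j).norm (hvi i).norm)
    (fun y => by
      obtain ⟨i₀, -⟩ := Function.ne_iff.1 (h0 y)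
      have : Nonempty β := ⟨i₀⟩
      exact Finite.exists_max fun j => ‖v y j‖)
  refine ⟨q, hq, fun y => ?_⟩
  obtain ⟨i, hi, he⟩ := hq' y
  have hne : v y i ≠ 0 := fun h => h0 y (funext fun j => by
    have := hi j
    rw [h, norm_zero] at this
    exact norm_le_zero_iff.1 this)
  rw [he]
  refine ⟨⟨?_, i, ?_⟩, (v y i)⁻¹, inv_ne_zero hne, rfl⟩
  · rw [pi_norm_le_iff_of_nonneg zero_le_one]
    intro j
    rw [Pi.smul_apply, smul_eq_mul, norm_mul, norm_inv, inv_mul_le_iff₀ (norm_pos_iff.2 hne),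
      mul_one]
    exact hi j
  · rw [Pi.smul_apply, smul_eq_mul, inv_mul_cancel₀ hne]

end Vale.Agent.P092.H44
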